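import Mathlib
import Crest.Prelude.Def_GlobularCoherator

/-! Basic infrastructure: variables of shapes, cells of models, gluing. -/

set_option autoImplicit false
open CategoryTheory CategoryTheory.Limits Opposite Crest.GeometryTopology.Coherator
universe u

namespace Crest.Agent.R248

open GlobTheory Shape

/-- the `i`-dimensional generating cells of a shape -/
abbrev Var (S : Shape) (i : ℕ) : Type := Shape.globe i ⟶ S

lemma faceMap_comp {i j m : ℕ} (h : i < j) (h' : j < m) (b b' : Bool) :
    faceMap h b ≫ faceMap h' b' = faceMap (h.trans h') b :=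
  (yoneda.map_comp (GlobeObj.faceArrow h b) (GlobeObj.faceArrow h' b')).symm

@[reassoc]
lemma faceMap_comp' {i j m : ℕ} (h : i < j) (h' : j < m) (b b' : Bool) :
    faceMap h b ≫ faceMap h' b' = faceMap (h.trans h') b := faceMap_comp h h' b b'

/-- the arrow of globes under a map of representable globes -/
def toArrow {i m : ℕ} (v : Var (globe m) i) : GlobeObj.Arrow i m :=
  (yonedaEquiv (X := GlobeObj.mk i) (F := GlobPsh.globeRep m) v : GlobeObj.mk i ⟶ GlobeObj.mk m)

lemma toArrow_id (m : ℕ) : toArrow (𝟙 (globe m)) = GlobeObj.Arrow.refl m := rfl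

lemma toArrow_face {i m : ℕ} (h : i < m) (b : Bool) :
    toArrow (faceMap h b) = GlobeObj.Arrow.pole h b := rfl

lemma toArrow_inj {i m : ℕ} {v w : Var (globe m) i} (h : toArrow v = toArrow w) : v = w :=
  (yonedaEquiv (X := GlobeObj.mk i) (F := GlobPsh.globeRep m)).injective h

lemma globe_ind {m : ℕ} {P : ∀ i, Var (globe m) i → Prop} (h1 : P m (𝟙 _))
    (h2 : ∀ i (h : i < m) b, P i (faceMap h b)) : ∀ i v, P i v := by
  intro i v
  have : ∀ (a : GlobeObj.Arrow i m), toArrow v = a → P i v := by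
    intro a ha
    cases a with
    | refl => 
      have : v = 𝟙 _ := toArrow_inj (by rw [ha, toArrow_id])
      rw [this]; exact h1
    | pole h b =>
      have : v = faceMap h b := toArrow_inj (by rw [ha, toArrow_face])
      rw [this]; exact h2 _ _ _
  exact this _ rfl

/-- case analysis on arrows -/
def arrowRec {m : ℕ} {β : ℕ → Sort*} (top : β m) (low : ∀ i, i < m → Bool → β i) :
    ∀ i, GlobeObj.Arrow i m → β i
  | _, .refl _ => top
  | i, .pole h b => low i h b

/-- define a family on the generating cells of a globe -/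
def globeRec {m : ℕ} {β : ℕ → Sort*} (top : β m) (low : ∀ i, i < m → Bool → β i)
    (i : ℕ) (v : Var (globe m) i) : β i := arrowRec top low i (toArrow v)

@[simp] lemma globeRec_id {m : ℕ} {β : ℕ → Sort*} (top : β m) (low : ∀ i, i < m → Bool → β i) :
    globeRec top low m (𝟙 _) = top := rfl

@[simp] lemma globeRec_face {m : ℕ} {β : ℕ → Sort*} (top : β m) (low : ∀ i, i < m → Bool → β i)
    (i : ℕ) (h : i < m) (b : Bool) : globeRec top low i (faceMap h b) = low i h b := rfl

section glue
variable (S : Shape) (b h : ℕ) (hb : b < S.last) (hh : b < h)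

lemma glue_w : S.hinge hb ≫ S.inLeft b h hb hh = faceMap hh false ≫ S.inRight b h hb hh :=
  pushout.condition (f := GlobPsh.globeRepFace hb true ≫ S.apex) (g := GlobPsh.globeRepFace hh false)

lemma glue_isPushout (i : ℕ) :
    IsPushout (((evaluation _ _).obj (op (GlobeObj.mk i))).map
        (GlobPsh.globeRepFace hb true ≫ S.apex))
      (((evaluation _ _).obj (op (GlobeObj.mk i))).map (GlobPsh.globeRepFace hh false))
      (((evaluation _ _).obj (op (GlobeObj.mk i))).map
        (pushout.inl (GlobPsh.globeRepFace hb true ≫ S.apex) (GlobPsh.globeRepFace hh false)))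
      (((evaluation _ _).obj (op (GlobeObj.mk i))).map
        (pushout.inr (GlobPsh.globeRepFace hb true ≫ S.apex) (GlobPsh.globeRepFace hh false))) :=
  (IsPushout.of_hasPushout _ _).map _

/-- variables as elements -/
noncomputable def varEquiv (T : Shape) (i : ℕ) : Var T i ≃ T.psh.obj (op (GlobeObj.mk i)) :=
  yonedaEquiv (X := GlobeObj.mk i) (F := T.psh)

lemma varEquiv_comp {T T' : Shape} {i : ℕ} (v : Var T i) (f : T ⟶ T') :
    varEquiv T' i (v ≫ f) = (f : T.psh ⟶ T'.psh).app _ (varEquiv T i v) := rfl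

lemma glue_cases {i : ℕ} (v : Var (S.glue b h hb hh) i) :
    (∃ w : Var S i, v = w ≫ S.inLeft b h hb hh) ∨
      ∃ w : Var (globe h) i, v = w ≫ S.inRight b h hb hh := by
  rcases Types.eq_or_eq_of_isPushout (glue_isPushout S b h hb hh i) (varEquiv _ i v) with
    ⟨x, hx⟩ | ⟨x, hx⟩
  · left
    refine ⟨(varEquiv S i).symm x, (varEquiv _ i).injective ?_⟩
    rw [varEquiv_comp, Equiv.apply_symm_apply]
    exact hx.symm
  · right
    refine ⟨(varEquiv (globe h) i).symm x, (varEquiv _ i).injective ?_⟩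
    rw [varEquiv_comp, Equiv.apply_symm_apply]
    exact hx.symm

lemma glue_ind {P : ∀ i, Var (S.glue b h hb hh) i → Prop}
    (h1 : ∀ i (w : Var S i), P i (w ≫ S.inLeft b h hb hh))
    (h2 : ∀ i (w : Var (globe h) i), P i (w ≫ S.inRight b h hb hh)) : ∀ i v, P i v := by
  intro i v
  rcases glue_cases S b h hb hh v with ⟨w, rfl⟩ | ⟨w, rfl⟩
  · exact h1 _ _
  · exact h2 _ _

lemma glue_desc {i : ℕ} {β : Sort*} (fL : Var S i → β) (fR : Var (globe h) i → β)
    (hLR : ∀ w : Var (globe b) i, fL (w ≫ S.hinge hb) = fR (w ≫ faceMap hh false)) :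
    ∃ f : Var (S.glue b h hb hh) i → β, (∀ w, f (w ≫ S.inLeft b h hb hh) = fL w) ∧
      ∀ w, f (w ≫ S.inRight b h hb hh) = fR w := by
  let r : Var S i ⊕ Var (globe h) i → Var S i ⊕ Var (globe h) i → Prop := fun x y =>
    ∃ w : Var (globe b) i, x = Sum.inl (w ≫ S.hinge hb) ∧ y = Sum.inr (w ≫ faceMap hh false)
  let sq := glue_isPushout S b h hb hh i
  let φ := sq.desc (W := Quot r) (↾fun x => Quot.mk r (Sum.inl ((varEquiv S i).symm x)))
    (↾fun x => Quot.mk r (Sum.inr ((varEquiv (globe h) i).symm x))) (by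
      ext x
      apply Quot.sound
      refine ⟨(varEquiv (globe b) i).symm x, ?_, ?_⟩
      · congr 1
        apply (varEquiv S i).injective
        rw [varEquiv_comp, Equiv.apply_symm_apply, Equiv.apply_symm_apply]
        rfl
      · congr 1
        apply (varEquiv (globe h) i).injective
        rw [varEquiv_comp, Equiv.apply_symm_apply, Equiv.apply_symm_apply]
        rfl)
  let ψ : Quot r → β := Quot.lift (fun x => Sum.rec fL fR x) (by
    rintro _ _ ⟨w, rfl, rfl⟩
    exact hLR w)
  refine ⟨fun v => ψ (φ (varEquiv _ i v)), fun w => ?_, fun w => ?_⟩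
  · have := types_congr_hom (sq.inl_desc (W := Quot r)
      (↾fun x => Quot.mk r (Sum.inl ((varEquiv S i).symm x)))
      (↾fun x => Quot.mk r (Sum.inr ((varEquiv (globe h) i).symm x))) (by
      ext x
      apply Quot.sound
      refine ⟨(varEquiv (globe b) i).symm x, ?_, ?_⟩
      · congr 1
        apply (varEquiv S i).injective
        rw [varEquiv_comp, Equiv.apply_symm_apply, Equiv.apply_symm_apply]
        rfl
      · congr 1
        apply (varEquiv (globe h) i).injective
        rw [varEquiv_comp, Equiv.apply_symm_apply, Equiv.apply_symm_apply]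
        rfl)) (varEquiv S i w)
    have h2 : φ (varEquiv _ i (w ≫ S.inLeft b h hb hh)) = Quot.mk r (Sum.inl w) := by
      refine this.trans ?_
      simp
    show ψ (φ (varEquiv _ i (w ≫ S.inLeft b h hb hh))) = fL w
    rw [h2]
  · have := types_congr_hom (sq.inr_desc (W := Quot r)
      (↾fun x => Quot.mk r (Sum.inl ((varEquiv S i).symm x)))
      (↾fun x => Quot.mk r (Sum.inr ((varEquiv (globe h) i).symm x))) (by
      ext x
      apply Quot.sound
      refine ⟨(varEquiv (globe b) i).symm x, ?_, ?_⟩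
      · congr 1
        apply (varEquiv S i).injective
        rw [varEquiv_comp, Equiv.apply_symm_apply, Equiv.apply_symm_apply]
        rfl
      · congr 1
        apply (varEquiv (globe h) i).injective
        rw [varEquiv_comp, Equiv.apply_symm_apply, Equiv.apply_symm_apply]
        rfl)) (varEquiv (globe h) i w)
    have h2 : φ (varEquiv _ i (w ≫ S.inRight b h hb hh)) = Quot.mk r (Sum.inr w) := by
      refine this.trans ?_
      simp
    show ψ (φ (varEquiv _ i (w ≫ S.inRight b h hb hh))) = fR w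
    rw [h2]

end glue

/-- induction over shapes -/
lemma shape_ind {P : Shape → Prop} (h1 : ∀ h, P (globe h))
    (h2 : ∀ (S : Shape) b h hb hh, P S → P (S.glue b h hb hh)) : ∀ S, P S := by
  rintro ⟨l, p⟩
  induction p with
  | single h => exact h1 h
  | glue P' b h hb hh ih => exact h2 ⟨_, P'⟩ b h hb hh ih

lemma dim_glue (S : Shape) (b h : ℕ) (hb : b < S.last) (hh : b < h) :
    (S.glue b h hb hh).dim = max S.dim h := rfl

lemma dim_globe (h : ℕ) : (globe h).dim = h := rfl

lemma var_le_dim : ∀ (S : Shape) (i : ℕ) (_ : Var S i), i ≤ S.dim := by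
  intro S
  induction S using shape_ind with
  | h1 h =>
    exact globe_ind (P := fun i _ => i ≤ (globe h).dim) le_rfl (fun i hi _ => hi.le)
  | h2 S b h hb hh ih =>
    refine glue_ind S b h hb hh (P := fun i _ => i ≤ (S.glue b h hb hh).dim) ?_ ?_
    · intro i w
      exact (ih i w).trans (le_max_left _ _)
    · intro i w
      refine le_trans ?_ (le_max_right S.dim h)
      exact globe_ind (P := fun i _ => i ≤ h) le_rfl (fun i hi _ => hi.le) i w

/-- the last globe as a variable -/
noncomputable def apexVar (S : Shape) : Var S S.last := (S.apex : GlobPsh.globeRep S.last ⟶ S.psh)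

lemma hinge_eq (S : Shape) {b : ℕ} (hb : b < S.last) :
    S.hinge hb = faceMap hb true ≫ apexVar S := rfl

lemma hinge_globe {h b : ℕ} (hb : b < h) : (globe h).hinge hb = faceMap hb true :=
  Category.comp_id (faceMap hb true)

lemma apexVar_globe (h : ℕ) : apexVar (globe h) = 𝟙 _ := rfl

lemma apexVar_glue (S : Shape) (b h : ℕ) (hb : b < S.last) (hh : b < h) :
    apexVar (S.glue b h hb hh) = S.inRight b h hb hh := rfl

/-! ### Models -/

variable {C : GlobTheory.{u}}

/-- tuples of shape `S` in a model -/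
abbrev V (X : C.GlobModel) (S : Shape) : Type u := X.functor.obj (op (⟨S⟩ : C.Ob))

/-- cells of a model -/
abbrev Cl (X : C.GlobModel) (m : ℕ) : Type u := V X (globe m)

/-- action of an operation -/
def act (X : C.GlobModel) {S T : Shape} (o : C.arr S T) (x : V X T) : V X S := X.act o x

lemma act_one (X : C.GlobModel) {S : Shape} (x : V X S) : act X (C.one S) x = x :=
  types_congr_hom (X.functor.map_id (op (⟨S⟩ : C.Ob))) x

lemma act_seq (X : C.GlobModel) {R S T : Shape} (o : C.arr R S) (o' : C.arr S T) (x : V X T) :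
    act X (C.seq o o') x = act X o (act X o' x) :=
  types_congr_hom (X.functor.map_comp
    (Quiver.Hom.op (X := (⟨S⟩ : C.Ob)) (Y := (⟨T⟩ : C.Ob)) o')
    (Quiver.Hom.op (X := (⟨R⟩ : C.Ob)) (Y := (⟨S⟩ : C.Ob)) o)) x

/-- restriction along a map of shapes -/
def ev (X : C.GlobModel) {S T : Shape} (f : S ⟶ T) (x : V X T) : V X S :=
  act X (C.ofShape f) x

@[simp] lemma ev_id (X : C.GlobModel) {S : Shape} (x : V X S) : ev X (𝟙 S) x = x := by
  rw [ev, C.ofShape_id, act_one]

lemma ev_comp (X : C.GlobModel) {R S T : Shape} (f : R ⟶ S) (g : S ⟶ T) (x : V X T) :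
    ev X (f ≫ g) x = ev X f (ev X g x) := by
  rw [ev, C.ofShape_comp, act_seq]; rfl

lemma ev_act (X : C.GlobModel) {R S T : Shape} (f : R ⟶ S) (o : C.arr S T) (x : V X T) :
    ev X f (act X o x) = act X (C.seq (C.ofShape f) o) x := by
  rw [act_seq]; rfl

/-- faces of cells -/
noncomputable def fc {X : C.GlobModel} {i m : ℕ} (h : i < m) (b : Bool) (x : Cl X m) : Cl X i :=
  ev X (faceMap h b) x

@[simp] lemma fc_fc {X : C.GlobModel} {i j m : ℕ} (h : i < j) (h' : j < m) (b b' : Bool)
    (x : Cl X m) : fc h b (fc h' b' x) = fc (h.trans h') b x := by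
  rw [fc, fc, ← ev_comp, faceMap_comp]; rfl

lemma fc_ev {X : C.GlobModel} {S : Shape} {i m : ℕ} (h : i < m) (b : Bool) (v : Var S m)
    (x : V X S) : fc h b (ev X v x) = ev X (faceMap h b ≫ v) x := by
  rw [fc, ev_comp]

/-- source -/
scoped notation:max "∂₀ " x:max => fc (Nat.lt_add_one _) false x

/-- target -/
scoped notation:max "∂₁ " x:max => fc (Nat.lt_add_one _) true x

/-- a map of models on tuples -/
def ap {X Y : C.GlobModel} (g : X ⟶ Y) {S : Shape} (x : V X S) : V Y S :=
  (g : X.functor ⟶ Y.functor).app (op (⟨S⟩ : C.Ob)) x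

@[simp] lemma ap_id {X : C.GlobModel} {S : Shape} (x : V X S) : ap (𝟙 X) x = x := rfl

@[simp] lemma ap_comp {X Y Z : C.GlobModel} (g : X ⟶ Y) (g' : Y ⟶ Z) {S : Shape} (x : V X S) :
    ap (g ≫ g') x = ap g' (ap g x) := rfl

lemma ap_act {X Y : C.GlobModel} (g : X ⟶ Y) {S T : Shape} (o : C.arr S T) (x : V X T) :
    ap g (act X o x) = act Y o (ap g x) :=
  types_congr_hom ((g : X.functor ⟶ Y.functor).naturality
    (Quiver.Hom.op (X := (⟨S⟩ : C.Ob)) (Y := (⟨T⟩ : C.Ob)) o)) x

lemma ap_ev {X Y : C.GlobModel} (g : X ⟶ Y) {S T : Shape} (f : S ⟶ T) (x : V X T) :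
    ap g (ev X f x) = ev Y f (ap g x) := ap_act g _ x

@[simp] lemma ap_fc {X Y : C.GlobModel} (g : X ⟶ Y) {i m : ℕ} (h : i < m) (b : Bool) (x : Cl X m) :
    ap g (fc h b x) = fc h b (ap g x) := ap_ev g _ x

/-- a map of models from its components -/
def mkHom {X Y : C.GlobModel} (f : ∀ S, V X S → V Y S)
    (hf : ∀ S T (o : C.arr S T) x, f S (act X o x) = act Y o (f T x)) : X ⟶ Y :=
  ({ app := fun S => ↾(f S.unop.shape)
     naturality := fun S T o => by
       ext x
       exact hf T.unop.shape S.unop.shape o.unop x } : X.functor ⟶ Y.functor)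

@[simp] lemma ap_mkHom {X Y : C.GlobModel} (f : ∀ S, V X S → V Y S)
    (hf : ∀ S T (o : C.arr S T) x, f S (act X o x) = act Y o (f T x)) {S : Shape} (x : V X S) :
    ap (mkHom f hf) x = f S x := rfl

lemma hom_ext' {X Y : C.GlobModel} {f g : X ⟶ Y} (h : ∀ S (x : V X S), ap f x = ap g x) :
    f = g := by
  apply NatTrans.ext
  ext S x
  exact h S.unop.shape x

section glue
variable (X : C.GlobModel) (S : Shape) (b h : ℕ) (hb : b < S.last) (hh : b < h)

lemma V_glue_ext {x y : V X (S.glue b h hb hh)}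
    (h1 : ev X (S.inLeft b h hb hh) x = ev X (S.inLeft b h hb hh) y)
    (h2 : ev X (S.inRight b h hb hh) x = ev X (S.inRight b h hb hh) y) : x = y :=
  Types.ext_of_isPullback (X.sums S b h hb hh) h1 h2

lemma V_glue_exists (x : V X S) (z : Cl X h)
    (hxz : ev X (S.hinge hb) x = fc hh false z) :
    ∃ y : V X (S.glue b h hb hh), ev X (S.inLeft b h hb hh) y = x ∧
      ev X (S.inRight b h hb hh) y = z :=
  Types.exists_of_isPullback (X.sums S b h hb hh) x z hxz

variable {X S b h hb hh}

/-- left component -/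
noncomputable def gL (x : V X (S.glue b h hb hh)) : V X S := ev X (S.inLeft b h hb hh) x

/-- right component -/
noncomputable def gR (x : V X (S.glue b h hb hh)) : Cl X h := ev X (S.inRight b h hb hh) x

/-- last cell -/
noncomputable def apx (x : V X S) : Cl X S.last := ev X (apexVar S) x

lemma apx_globe (x : Cl X h) : apx x = x := ev_id X x

lemma apx_glue (x : V X (S.glue b h hb hh)) : apx x = gR x := rfl

lemma fc_apx_gL (x : V X (S.glue b h hb hh)) : fc hb true (apx (gL x)) = fc hh false (gR x) := by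
  rw [apx, gL, gR, fc_ev, fc_ev, ← glue_w, ← ev_comp, hinge_eq]

lemma g_ext {x y : V X (S.glue b h hb hh)} (h1 : gL x = gL y) (h2 : gR x = gR y) : x = y :=
  V_glue_ext X S b h hb hh h1 h2

lemma g_exists (hb : b < S.last) (hh : b < h) (x : V X S) (z : Cl X h)
    (hxz : fc hb true (apx x) = fc hh false z) :
    ∃ y : V X (S.glue b h hb hh), gL y = x ∧ gR y = z :=
  V_glue_exists X S b h hb hh x z (by rw [← hxz, apx, fc_ev, hinge_eq])

lemma ap_gL {Y : C.GlobModel} (g : X ⟶ Y) (x : V X (S.glue b h hb hh)) :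
    ap g (gL x) = gL (ap g x) := ap_ev g _ x

lemma ap_gR {Y : C.GlobModel} (g : X ⟶ Y) (x : V X (S.glue b h hb hh)) :
    ap g (gR x) = gR (ap g x) := ap_ev g _ x

lemma ap_apx {Y : C.GlobModel} (g : X ⟶ Y) (x : V X S) : ap g (apx x) = apx (ap g x) :=
  ap_ev g _ x

end glue

/-- a tuple is determined by its values on variables -/
lemma V_ext (X : C.GlobModel) : ∀ (S : Shape) {x y : V X S},
    (∀ i (v : Var S i), ev X v x = ev X v y) → x = y := by
  intro S
  induction S using shape_ind with
  | h1 h => intro x y hxy; simpa using hxy h (𝟙 _)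
  | h2 S b h hb hh ih =>
    intro x y hxy
    apply V_glue_ext
    · apply ih
      intro i v
      rw [← ev_comp, ← ev_comp, hxy]
    · exact hxy h _

/-- a compatible family of cells on the variables of a shape is a tuple -/
lemma V_exists (X : C.GlobModel) : ∀ (S : Shape) (f : ∀ i, Var S i → Cl X i),
    (∀ i j (h : j < i) b v, fc h b (f i v) = f j (faceMap h b ≫ v)) →
    ∃ x : V X S, ∀ i v, ev X v x = f i v := by
  intro S
  induction S using shape_ind with
  | h1 h =>
    intro f hf
    refine ⟨f h (𝟙 _), ?_⟩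
    refine globe_ind (by simp) (fun i hi b => ?_)
    have := hf h i hi b (𝟙 _)
    rw [Category.comp_id] at this
    exact this
  | h2 S b h hb hh ih =>
    intro f hf
    obtain ⟨x, hx⟩ := ih (fun i v => f i (v ≫ S.inLeft b h hb hh))
      (fun i j h' b' v => by rw [hf, Category.assoc])
    obtain ⟨y, hy1, hy2⟩ := V_glue_exists X S b h hb hh x (f h (S.inRight b h hb hh)) (by
      rw [hx, hf, glue_w])
    refine ⟨y, glue_ind S b h hb hh ?_ ?_⟩
    · intro i w
      rw [ev_comp, hy1, hx]
    · refine globe_ind ?_ ?_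
      · rw [Category.id_comp, hy2]
      · intro i hi b'
        rw [← fc_ev, hy2, hf]

lemma hom_ext {X Y : C.GlobModel} {f g : X ⟶ Y} (h : ∀ m (x : Cl X m), ap f x = ap g x) :
    f = g := by
  apply hom_ext'
  intro S x
  apply V_ext
  intro i v
  rw [← ap_ev, ← ap_ev, h]

/-! ### Free models on shapes -/

/-- free model -/
noncomputable abbrev Fr (C : GlobTheory.{u}) (S : Shape) : C.GlobModel := GlobModel.freeOn C S

/-- an operation as a tuple of the free model -/
def opV {S T : Shape} (o : C.arr S T) : V (Fr C T) S := o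

/-- a tuple of the free model as an operation -/
def vOp {S T : Shape} (o : V (Fr C T) S) : C.arr S T := o

lemma act_opV {R S T : Shape} (o : C.arr R S) (o' : C.arr S T) :
    act (Fr C T) o (opV o') = opV (C.seq o o') := rfl

/-- the universal tuple -/
def univ (C : GlobTheory.{u}) (S : Shape) : V (Fr C S) S := opV (C.one S)

lemma act_univ {S T : Shape} (o : C.arr S T) : act (Fr C T) o (univ C T) = opV o :=
  C.seq_one o

/-- classifying map -/
noncomputable def cls {X : C.GlobModel} {S : Shape} (x : V X S) : Fr C S ⟶ X :=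
  mkHom (fun _ o => act X (vOp o) x) (fun _ _ o o' => act_seq X o (vOp o') x)

lemma ap_cls {X : C.GlobModel} {S T : Shape} (x : V X S) (o : V (Fr C S) T) :
    ap (cls x) o = act X (vOp o) x := rfl

@[simp] lemma ap_cls_univ {X : C.GlobModel} {S : Shape} (x : V X S) :
    ap (cls x) (univ C S) = x := act_one X x

lemma fr_hom_ext {X : C.GlobModel} {S : Shape} {f g : Fr C S ⟶ X}
    (h : ap f (univ C S) = ap g (univ C S)) : f = g := by
  apply hom_ext'
  intro T o
  have : o = act (Fr C S) (vOp o) (univ C S) := (act_univ (vOp o)).symm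
  rw [this, ap_act, ap_act, h]

lemma cls_comp {X Y : C.GlobModel} {S : Shape} (x : V X S) (g : X ⟶ Y) :
    cls x ≫ g = cls (ap g x) := by
  apply fr_hom_ext
  simp

/-! ### Parallel cells and connectivity -/

/-- parallel cells -/
def Par {X : C.GlobModel} {m : ℕ} (x y : Cl X m) : Prop :=
  ∀ i (h : i < m) b, fc h b x = fc h b y

/-- joined by a cell -/
def Rel {X : C.GlobModel} {m : ℕ} (x y : Cl X m) : Prop :=
  ∃ w : Cl X (m + 1), ∂₀ w = x ∧ ∂₁ w = y

/-- parallel cells of dimension `M` are joined -/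
def Con (X : C.GlobModel) (M : ℕ) : Prop := ∀ x y : Cl X M, Par x y → Rel x y

lemma Par.refl {X : C.GlobModel} {m : ℕ} (x : Cl X m) : Par x x := fun _ _ _ => rfl

lemma Par.symm {X : C.GlobModel} {m : ℕ} {x y : Cl X m} (h : Par x y) : Par y x :=
  fun i hi b => (h i hi b).symm

lemma Par.trans {X : C.GlobModel} {m : ℕ} {x y z : Cl X m} (h : Par x y) (h' : Par y z) :
    Par x z := fun i hi b => (h i hi b).trans (h' i hi b)

lemma Par.map {X Y : C.GlobModel} (g : X ⟶ Y) {m : ℕ} {x y : Cl X m} (h : Par x y) :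
    Par (ap g x) (ap g y) := fun i hi b => by rw [← ap_fc, ← ap_fc, h]

lemma Rel.map {X Y : C.GlobModel} (g : X ⟶ Y) {m : ℕ} {x y : Cl X m} (h : Rel x y) :
    Rel (ap g x) (ap g y) := by
  obtain ⟨w, rfl, rfl⟩ := h
  exact ⟨ap g w, by simp, by simp⟩

lemma par_src_tgt {X : C.GlobModel} {m : ℕ} (w : Cl X (m + 1)) : Par (∂₀ w) (∂₁ w) :=
  fun i hi b => by simp

lemma Rel.par {X : C.GlobModel} {m : ℕ} {x y : Cl X m} (h : Rel x y) : Par x y := by
  obtain ⟨w, rfl, rfl⟩ := h
  exact par_src_tgt w

lemma par_of_succ {X : C.GlobModel} {m : ℕ} {x y : Cl X (m + 1)} (h1 : ∂₀ x = ∂₀ y)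
    (h2 : ∂₁ x = ∂₁ y) : Par x y := by
  intro i hi b
  rcases Nat.lt_succ_iff_lt_or_eq.1 hi with h | rfl
  · rw [← fc_fc h (Nat.lt_add_one m) b false, ← fc_fc h (Nat.lt_add_one m) b false y]
    exact congrArg _ h1
  · cases b
    · exact h1
    · exact h2

lemma con_free (hC : C.IsCoheratorTheory) (G : Shape) (M : ℕ) (hG : G.dim ≤ M + 1) :
    Con (Fr C G) M := by
  intro x y hxy
  have hp : C.OpsParallel M (vOp x) (vOp y) := by
    cases M with
    | zero => trivial
    | succ M => exact ⟨hxy M (Nat.lt_add_one M) false, hxy M (Nat.lt_add_one M) true⟩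
  obtain ⟨z, hz1, hz2⟩ := hC.2 ⟨M, G, hG, vOp x, vOp y, hp⟩
  exact ⟨opV z, hz1, hz2⟩

end Crest.Agent.R248
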