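import Crest.Agent.R248.Ops

/-! Inserting a `(k+1)`-globe at every `k`-cell of a shape gives a shape. -/

set_option autoImplicit false
set_option linter.unusedVariables false
open CategoryTheory CategoryTheory.Limits Opposite Crest.GeometryTopology.Coherator
universe u

namespace Crest.Agent.R248

open GlobTheory Shape

noncomputable section

variable {C : GlobTheory.{u}}

lemma var_globe_self {m : ℕ} (v : Var (globe m) m) : v = 𝟙 _ := by
  have : ∀ i (v : Var (globe m) i) (h : i = m), HEq v (𝟙 (globe m)) :=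
    globe_ind (fun _ => HEq.rfl) (fun i hi b h => by omega)
  exact eq_of_heq (this m v rfl)

lemma var_globe_lt {m i : ℕ} (hi : i < m) (v : Var (globe m) i) : ∃ b, v = faceMap hi b := by
  revert hi
  induction i, v using globe_ind with
  | h1 => intro hi; omega
  | h2 i h b => exact fun _ => ⟨b, rfl⟩

lemma var_globe_le {m i : ℕ} (v : Var (globe m) i) : i ≤ m := var_le_dim _ i v

/-- expansion data -/
@[ext]
structure Ex (k : ℕ) (X : C.GlobModel) (S : Shape) : Type u where
  val : ∀ i, Var S i → Cl X i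
  q : Var S k → Cl X (k + 1)
  tgt_q : ∀ x, ∂₁ (q x) = val k x
  face : ∀ i j (h : j < i) b v, (j = k → b = false) →
    fc h b (val i v) = val j (faceMap h b ≫ v)
  face_k : ∀ i (h : k < i) v, fc h true (val i v) = ∂₀ (q (faceMap h true ≫ v))

namespace Ex

variable {k : ℕ} {X Y Z : C.GlobModel} {R S T : Shape}

lemma ext' {x y : Ex k X S} (h : ∀ i v, x.val i v = y.val i v) (h' : ∀ v, x.q v = y.q v) :
    x = y := by
  ext1
  · funext i v; exact h i v
  · funext v; exact h' v

/-- restriction -/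
def res (f : S ⟶ T) (x : Ex k X T) : Ex k X S where
  val i v := x.val i (v ≫ f)
  q v := x.q (v ≫ f)
  tgt_q v := x.tgt_q _
  face i j h b v hb := by rw [x.face i j h b _ hb, Category.assoc]
  face_k i h v := by rw [x.face_k, Category.assoc]

/-- image -/
def push (g : X ⟶ Y) (x : Ex k X S) : Ex k Y S where
  val i v := ap g (x.val i v)
  q v := ap g (x.q v)
  tgt_q v := by rw [← ap_fc, x.tgt_q]
  face i j h b v hb := by rw [← ap_fc, x.face i j h b _ hb]
  face_k i h v := by rw [← ap_fc, x.face_k, ap_fc]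

@[simp] lemma res_val (f : S ⟶ T) (x : Ex k X T) (i : ℕ) (v : Var S i) :
    (res f x).val i v = x.val i (v ≫ f) := rfl
@[simp] lemma res_q (f : S ⟶ T) (x : Ex k X T) (v : Var S k) : (res f x).q v = x.q (v ≫ f) := rfl
@[simp] lemma push_val (g : X ⟶ Y) (x : Ex k X S) (i : ℕ) (v : Var S i) :
    (push g x).val i v = ap g (x.val i v) := rfl
@[simp] lemma push_q (g : X ⟶ Y) (x : Ex k X S) (v : Var S k) : (push g x).q v = ap g (x.q v) := rfl

lemma glue_ext (S : Shape) (b h : ℕ) (hb : b < S.last) (hh : b < h)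
    (x y : Ex k X (S.glue b h hb hh))
    (h1 : res (S.inLeft b h hb hh) x = res (S.inLeft b h hb hh) y)
    (h2 : res (S.inRight b h hb hh) x = res (S.inRight b h hb hh) y) : x = y := by
  refine ext' (fun i v => ?_) (fun v => ?_)
  · rcases glue_cases S b h hb hh v with ⟨w, rfl⟩ | ⟨w, rfl⟩
    · exact congrArg (fun a : Ex k X S => a.val i w) h1
    · exact congrArg (fun a : Ex k X (globe h) => a.val i w) h2
  · rcases glue_cases S b h hb hh v with ⟨w, rfl⟩ | ⟨w, rfl⟩
    · exact congrArg (fun a : Ex k X S => a.q w) h1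
    · exact congrArg (fun a : Ex k X (globe h) => a.q w) h2

lemma glue_ex (S : Shape) (b h : ℕ) (hb : b < S.last) (hh : b < h) (x : Ex k X S)
    (z : Ex k X (globe h)) (hxz : res (S.hinge hb) x = res (faceMap hh false) z) :
    ∃ y : Ex k X (S.glue b h hb hh), res (S.inLeft b h hb hh) y = x ∧
      res (S.inRight b h hb hh) y = z := by
  choose f hf1 hf2 using fun i => glue_desc S b h hb hh (x.val i) (z.val i)
    (fun w => congrArg (fun a : Ex k X (globe b) => a.val i w) hxz)
  obtain ⟨g, hg1, hg2⟩ := glue_desc S b h hb hh x.q z.q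
    (fun w => congrArg (fun a : Ex k X (globe b) => a.q w) hxz)
  refine ⟨⟨f, g, fun v => ?_, fun i j h' b' v hb' => ?_, fun i h' v => ?_⟩,
    ext' hf1 hg1, ext' hf2 hg2⟩
  all_goals rcases glue_cases S b h hb hh v with ⟨w, rfl⟩ | ⟨w, rfl⟩
  · rw [hg1, hf1, x.tgt_q]
  · rw [hg2, hf2, z.tgt_q]
  · rw [hf1, x.face _ _ _ _ _ hb', ← Category.assoc, hf1]
  · rw [hf2, z.face _ _ _ _ _ hb', ← Category.assoc, hf2]
  · rw [hf1, x.face_k, ← Category.assoc, hg1]
  · rw [hf2, z.face_k, ← Category.assoc, hg2]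

lemma globe_ext {h : ℕ} {x y : Ex k X (globe h)} (h1 : h ≠ k → x.val h (𝟙 _) = y.val h (𝟙 _))
    (h2 : ∀ v, x.q v = y.q v) : x = y := by
  have h3 : ∀ v, x.val k v = y.val k v := fun v => by rw [← x.tgt_q, ← y.tgt_q, h2]
  have h4 : x.val h (𝟙 _) = y.val h (𝟙 _) := by
    by_cases hk : h = k
    · subst hk; exact h3 _
    · exact h1 hk
  refine ext' (fun i v => ?_) h2
  induction i, v using globe_ind with
  | h1 => exact h4
  | h2 i hi b =>
    by_cases hk : i = k
    · subst hk; exact h3 _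
    · rw [← Category.comp_id (faceMap hi b), ← x.face _ _ _ _ _ (fun h => absurd h hk),
        ← y.face _ _ _ _ _ (fun h => absurd h hk), h4]

lemma ex_low {h : ℕ} (hk : h < k) (z : Cl X h) : ∃ e : Ex k X (globe h), e.val h (𝟙 _) = z :=
  ⟨⟨fun i v => ev X v z, fun v => absurd (var_globe_le v) (by omega),
    fun v => absurd (var_globe_le v) (by omega), fun i j h b v _ => fc_ev h b v z,
    fun i hi v => absurd (var_globe_le v) (by omega)⟩, ev_id X z⟩

lemma ex_mid (c : Cl X (k + 1)) : ∃ e : Ex k X (globe k), e.q (𝟙 _) = c :=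
  ⟨⟨fun i v => ev X v (∂₁ c), fun v => c, fun v => by rw [var_globe_self v, ev_id],
    fun i j h b v _ => fc_ev h b v _, fun i hi v => absurd (var_globe_le v) (by omega)⟩, rfl⟩

lemma ex_tri {h : ℕ} {hk : k < h} (t : Tri X k h hk) : ∃ e : Ex k X (globe h),
    e.val h (𝟙 _) = t.z ∧ e.q (faceMap hk false) = t.γ ∧ e.q (faceMap hk true) = t.δ := by
  let low : ∀ i, i < h → Bool → Cl X i := fun i hi b =>
    if hik : i = k ∧ b = true then hik.1 ▸ ∂₁ t.δ else fc hi b t.z
  have low1 : ∀ hi, low k hi true = ∂₁ t.δ := fun hi => by simp [low]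
  have low2 : ∀ i hi b, (i = k → b = false) → low i hi b = fc hi b t.z := fun i hi b hb =>
    dif_neg (fun h => by simp [hb h.1] at h)
  refine ⟨⟨globeRec t.z low, globeRec (β := fun _ => Cl X (k + 1)) t.γ
    (fun _ _ b => cond b t.δ t.γ) k, fun v => ?_, fun i j hj b v hb => ?_, fun i hi v => ?_⟩,
    rfl, rfl, rfl⟩
  · obtain ⟨b, rfl⟩ := var_globe_lt hk v
    rw [globeRec_face, globeRec_face]
    cases b
    · rw [low2 _ _ _ (fun _ => rfl)]; exact t.h1
    · rw [low1]; rfl
  · induction i, v using globe_ind with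
    | h1 => rw [Category.comp_id, globeRec_id, globeRec_face, low2 _ _ _ hb]
    | h2 i hi b' =>
      rw [faceMap_comp, globeRec_face, globeRec_face, low2 _ _ _ hb]
      by_cases hik : i = k ∧ b' = true
      · obtain ⟨rfl, rfl⟩ := hik
        rw [low1, ← par_src_tgt t.δ j hj b, t.h2, fc_fc]
      · rw [low2 _ _ _ (fun h => by simpa [h] using hik), fc_fc]
  · induction i, v using globe_ind with
    | h1 => rw [Category.comp_id, globeRec_id, globeRec_face]; exact t.h2.symm
    | h2 i hi' b' =>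
      rw [faceMap_comp, globeRec_face, globeRec_face, low2 _ _ _ (fun h => by omega), fc_fc]
      exact t.h2.symm

section compat
variable {b h : ℕ} {hb : b < S.last} {hh : b < h} {x : Ex k X S} {z : Ex k X (globe h)}

lemma c_val (hc : res (S.hinge hb) x = res (faceMap hh false) z) (hbk : b ≠ k) :
    fc hb true (x.val _ (apexVar S)) = fc hh false (z.val h (𝟙 _)) := by
  have := congrArg (fun a : Ex k X (globe b) => a.val b (𝟙 _)) hc
  simp only [res_val, Category.id_comp] at this
  rw [x.face _ _ _ _ _ (fun h => absurd h hbk), z.face _ _ _ _ _ (fun _ => rfl), Category.comp_id]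
  exact this

lemma c_q (hc : res (S.hinge hb) x = res (faceMap hh false) z) (v : Var (globe b) k) :
    x.q (v ≫ S.hinge hb) = z.q (v ≫ faceMap hh false) :=
  congrArg (fun a : Ex k X (globe b) => a.q v) hc

lemma compat_of (h1 : b ≠ k → fc hb true (x.val _ (apexVar S)) = fc hh false (z.val h (𝟙 _)))
    (h2 : ∀ v : Var (globe b) k, x.q (v ≫ S.hinge hb) = z.q (v ≫ faceMap hh false)) :
    res (S.hinge hb) x = res (faceMap hh false) z := by
  refine globe_ext (fun hbk => ?_) h2
  have := h1 hbk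
  rw [x.face _ _ _ _ _ (fun h => absurd h hbk), z.face _ _ _ _ _ (fun _ => rfl),
    Category.comp_id] at this
  simp only [res_val, Category.id_comp]
  exact this

end compat

end Ex

section frglue
variable (C) (S : Shape) (b h : ℕ) (hb : b < S.last) (hh : b < h)

/-- inclusion of free models -/
def iL : Fr C S ⟶ Fr C (S.glue b h hb hh) := cls (gL (univ C (S.glue b h hb hh)))

/-- the new cell -/
def nw : Cl (Fr C (S.glue b h hb hh)) h := gR (univ C (S.glue b h hb hh))

/-- the last cell -/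
def ax : Cl (Fr C S) S.last := apx (univ C S)

lemma ax_glue : ax C (S.glue b h hb hh) = nw C S b h hb hh := rfl

lemma fc_iL_ax : fc hb true (ap (iL C S b h hb hh) (ax C S)) = fc hh false (nw C S b h hb hh) := by
  rw [ax, ap_apx, iL, ap_cls_univ, fc_apx_gL, nw]

variable {C S b h}

lemma fr_glue_ex {Z : C.GlobModel} (β : Fr C S ⟶ Z) (z : Cl Z h)
    (hz : fc hb true (ap β (ax C S)) = fc hh false z) :
    ∃ β' : Fr C (S.glue b h hb hh) ⟶ Z, iL C S b h hb hh ≫ β' = β ∧
      ap β' (nw C S b h hb hh) = z := by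
  obtain ⟨y, h1, h2⟩ := g_exists hb hh (ap β (univ C S)) z (by rw [← ap_apx]; exact hz)
  refine ⟨cls y, fr_hom_ext ?_, ?_⟩
  · rw [ap_comp, iL, ap_cls_univ, ap_gL, ap_cls_univ, h1]
  · rw [nw, ap_gR, ap_cls_univ, h2]

lemma fr_glue_ext {Z : C.GlobModel} {β β' : Fr C (S.glue b h hb hh) ⟶ Z}
    (h1 : iL C S b h hb hh ≫ β = iL C S b h hb hh ≫ β')
    (h2 : ap β (nw C S b h hb hh) = ap β' (nw C S b h hb hh)) : β = β' := by
  apply fr_hom_ext
  apply g_ext
  · have := congrArg (fun f => ap f (univ C S)) h1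
    simp only [ap_comp, iL, ap_cls_univ, ap_gL] at this
    exact this
  · rw [← ap_gR, ← ap_gR]; exact h2

lemma ax_globe (h : ℕ) : ax C (globe h) = univ C (globe h) := apx_globe _

end frglue

/-- weak representability of expansion data -/
def Rp (k : ℕ) {S : Shape} (G : Shape) (e : Ex k (Fr C G) S) : Prop :=
  ∀ (Z : C.GlobModel) (δ : Ex k Z S), ∃ β : Fr C G ⟶ Z, e.push β = δ

lemma rp_step {k : ℕ} {S G G' : Shape} {e : Ex k (Fr C G) S} (he : Rp k G e) {b h : ℕ}
    (hb : b < S.last) (hh : b < h) (ι : Fr C G ⟶ Fr C G') (ε : Ex k (Fr C G') (globe h))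
    (hc : Ex.res (S.hinge hb) (e.push ι) = Ex.res (faceMap hh false) ε)
    (hE : ∀ (Z : C.GlobModel) (β : Fr C G ⟶ Z) (ε' : Ex k Z (globe h)),
      Ex.res (S.hinge hb) (e.push β) = Ex.res (faceMap hh false) ε' →
      ∃ β' : Fr C G' ⟶ Z, ι ≫ β' = β ∧ ε.push β' = ε') :
    ∃ e' : Ex k (Fr C G') (S.glue b h hb hh), Rp k G' e' ∧
      Ex.res (S.inRight b h hb hh) e' = ε := by
  obtain ⟨e', h1, h2⟩ := Ex.glue_ex S b h hb hh _ _ hc
  refine ⟨e', fun Z δ => ?_, h2⟩
  obtain ⟨β, hβ⟩ := he Z (Ex.res (S.inLeft b h hb hh) δ)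
  obtain ⟨β', h3, h4⟩ := hE Z β (Ex.res (S.inRight b h hb hh) δ) (by
    rw [hβ]
    refine Ex.ext' (fun i v => ?_) (fun v => ?_) <;>
      simp only [Ex.res_val, Ex.res_q, Category.assoc, glue_w])
  refine ⟨β', Ex.glue_ext S b h hb hh _ _ ?_ ?_⟩
  · rw [← hβ, ← h3]
    exact congrArg (Ex.push β') h1
  · rw [← h4]
    exact congrArg (Ex.push β') h2

/-- closing a shape ending with a `(k+1)`-globe by an `h`-globe and a `(k+1)`-globe -/
lemma closing {k h : ℕ} (hk : k < h) (P : Pasting (k + 1)) :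
    let G1 : Shape := ⟨k + 1, P⟩
    let G2 : Shape := G1.glue k h (Nat.lt_add_one k) hk
    let G3 : Shape := G2.glue k (k + 1) hk (Nat.lt_add_one k)
    ∃ (ι : Fr C G1 ⟶ Fr C G3) (ε : Ex k (Fr C G3) (globe h)),
      ε.val h (𝟙 _) = ap (iL C G2 k (k + 1) hk (Nat.lt_add_one k)) (ax C G2) ∧
      ε.q (faceMap hk false) = ap ι (ax C G1) ∧
      ε.q (faceMap hk true) = nw C G2 k (k + 1) hk (Nat.lt_add_one k) ∧
      ∀ (Z : C.GlobModel) (β : Fr C G1 ⟶ Z) (ε' : Ex k Z (globe h)),
        ε'.q (faceMap hk false) = ap β (ax C G1) →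
        ∃ β' : Fr C G3 ⟶ Z, ι ≫ β' = β ∧ ε.push β' = ε' := by
  intro G1 G2 G3
  have hk1 := Nat.lt_add_one k
  let i1 := iL C G1 k h hk1 hk
  let i2 := iL C G2 k (k + 1) hk hk1
  obtain ⟨ε, h1, h2, h3⟩ := Ex.ex_tri (X := Fr C G3) (hk := hk)
    ⟨ap (i1 ≫ i2) (ax C G1), ap i2 (ax C G2), nw C G2 k (k + 1) hk hk1,
      (ap_fc i2 hk1 true _).symm.trans
        ((congrArg (ap i2) (fc_iL_ax C G1 k h hk1 hk)).trans (ap_fc i2 hk false _)),
      (fc_iL_ax C G2 k (k + 1) hk hk1).symm⟩
  refine ⟨i1 ≫ i2, ε, h1, h2, h3, fun Z β ε' hε => ?_⟩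
  obtain ⟨β2, h4, h5⟩ := fr_glue_ex (S := G1) hk1 hk β (ε'.val h (𝟙 _)) (by
    rw [ε'.face _ _ _ _ _ (fun _ => rfl), Category.comp_id, ← ε'.tgt_q, hε])
  obtain ⟨β3, h6, h7⟩ := fr_glue_ex (S := G2) hk hk1 β2 (ε'.q (faceMap hk true)) (by
    have := ε'.face_k h hk (𝟙 _)
    rw [Category.comp_id, ← h5] at this
    exact this)
  refine ⟨β3, ?_, Ex.globe_ext (fun _ => ?_) (fun v => ?_)⟩
  · rw [Category.assoc, h6, h4]
  · rw [Ex.push_val, h1, ← h5, ← h6]; rfl
  · obtain ⟨b, rfl⟩ := var_globe_lt hk v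
    cases b
    · rw [Ex.push_q, h2, hε, ← h4, ← h6]; rfl
    · rw [Ex.push_q, h3, h7]

/-- invariant, common form -/
def Inv0 (C : GlobTheory.{u}) (k : ℕ) (S : Shape) : Prop :=
  ∃ (G : Shape) (e : Ex k (Fr C G) S), G.dim ≤ max S.dim (k + 1) ∧ Rp k G e ∧
    ∀ b (hb : b < S.last), b < k →
      ∃ hb' : b < G.last, fc hb' true (ax C G) = fc hb true (e.val _ (apexVar S))

/-- invariant, closed form -/
def Inv1 (C : GlobTheory.{u}) (k : ℕ) (S : Shape) (hk : k < S.last) : Prop :=
  ∃ (P : Pasting S.last)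
    (e : Ex k (Fr C ((⟨S.last, P⟩ : Shape).glue k (k + 1) hk (Nat.lt_add_one k))) S),
    P.dim ≤ max S.dim (k + 1) ∧ Rp k _ e ∧
    e.val _ (apexVar S) = ap (iL C ⟨S.last, P⟩ k (k + 1) hk (Nat.lt_add_one k)) (ax C ⟨S.last, P⟩) ∧
    e.q (faceMap hk true ≫ apexVar S) = nw C ⟨S.last, P⟩ k (k + 1) hk (Nat.lt_add_one k)

lemma Inv1.inv0 {k : ℕ} {S : Shape} {hk : k < S.last} (h : Inv1 C k S hk) : Inv0 C k S := by
  obtain ⟨P, e, h1, h2, h3, h4⟩ := h
  refine ⟨_, e, max_le h1 (le_max_right _ _), h2, fun b hb hbk => ⟨hbk.trans (Nat.lt_add_one k), ?_⟩⟩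
  rw [← fc_fc hbk hk true true (e.val _ _), e.face_k, h4, fc_fc]
  rfl

theorem inv_all (k : ℕ) : ∀ S : Shape, Inv0 C k S ∧ ∀ hk : k < S.last, Inv1 C k S hk := by
  have hk1 := Nat.lt_add_one k
  intro S
  suffices h : (S.last ≤ k → Inv0 C k S) ∧ ∀ hk : k < S.last, Inv1 C k S hk by
    refine ⟨?_, h.2⟩
    rcases le_or_gt S.last k with h' | h'
    · exact h.1 h'
    · exact (h.2 h').inv0
  induction S using shape_ind with
  | h1 h =>
    constructor
    · intro hh
      rcases lt_or_eq_of_le (show h ≤ k from hh) with hlt | rfl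
      · obtain ⟨e, he⟩ := Ex.ex_low hlt (univ C (globe h))
        refine ⟨globe h, e, le_max_left _ _, fun Z δ => ⟨cls (δ.val h (𝟙 _)),
          Ex.globe_ext (fun _ => ?_) (fun v => absurd (var_globe_le v) (by omega))⟩,
          fun b hb _ => ⟨hb, ?_⟩⟩
        · rw [Ex.push_val, he, ap_cls_univ]
        · exact congrArg (fc hb true) ((ax_globe h).trans he.symm)
      · obtain ⟨e, he⟩ := Ex.ex_mid (univ C (globe (h + 1)))
        refine ⟨globe (h + 1), e, le_max_right _ _, fun Z δ => ⟨cls (δ.q (𝟙 _)),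
          Ex.globe_ext (fun h => absurd rfl h) (fun v => ?_)⟩,
          fun b hb _ => ⟨Nat.lt_succ_of_lt hb, ?_⟩⟩
        · rw [var_globe_self v, Ex.push_q, he, ap_cls_univ]
        · refine (congrArg (fc (Nat.lt_succ_of_lt hb) true) ((ax_globe (h + 1)).trans he.symm)).trans ?_
          exact (fc_fc hb hk1 true true _).symm.trans (congrArg (fc hb true) (e.tgt_q (𝟙 _)))
    · intro hk
      obtain ⟨ι, ε, h1, h2, h3, h4⟩ := closing (C := C) (h := h) hk (.single (k + 1))
      refine ⟨.glue (.single (k + 1)) k h hk1 hk, ε, ?_, fun Z δ => ?_, h1, ?_⟩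
      · exact max_le (le_max_right _ _) (le_max_left _ _)
      · obtain ⟨β, -, hβ⟩ := h4 Z (cls (δ.q (faceMap hk false))) δ
          ((congrArg (ap (cls (δ.q (faceMap hk false)))) (ax_globe (k + 1))).trans
            (ap_cls_univ _)).symm
        exact ⟨β, hβ⟩
      · exact (congrArg ε.q (Category.comp_id (faceMap hk true))).trans h3
  | h2 S b h hb hh ih =>
    have ih0 : Inv0 C k S := by
      rcases le_or_gt S.last k with h' | h'
      · exact ih.1 h'
      · exact (ih.2 h').inv0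
    have hdim : ∀ {d : ℕ}, d ≤ max S.dim (k + 1) → d ≤ max (S.glue b h hb hh).dim (k + 1) :=
      fun hd => hd.trans (max_le_max_right _ (le_max_left _ _))
    have hdim' : h ≤ max (S.glue b h hb hh).dim (k + 1) :=
      (le_max_right S.dim h).trans (le_max_left _ _)
    constructor
    · intro hhk
      have hhk' : h ≤ k := hhk
      have hbk : b < k := by omega
      obtain ⟨G, e, h1, h2, h3⟩ := ih0
      obtain ⟨hb', h3⟩ := h3 b hb hbk
      have noq : ∀ v : Var (globe b) k, False := fun v => absurd (var_globe_le v) (by omega)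
      rcases lt_or_eq_of_le hhk' with hlt | rfl
      · obtain ⟨ε, hε⟩ := Ex.ex_low hlt (nw C G b h hb' hh)
        obtain ⟨e', h4, h5⟩ := rp_step h2 hb hh (iL C G b h hb' hh) ε
          (Ex.compat_of (fun _ => by rw [hε, ← fc_iL_ax, Ex.push_val, ← ap_fc, ← ap_fc, h3])
            (fun v => (noq v).elim)) (by
          intro Z β ε' hc
          obtain ⟨β', h6, h7⟩ := fr_glue_ex hb' hh β (ε'.val h (𝟙 _)) (by
            rw [← Ex.c_val hc hbk.ne, Ex.push_val, ← ap_fc, ← ap_fc, h3])
          exact ⟨β', h6, Ex.globe_ext (fun _ => by rw [Ex.push_val, hε, h7])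
            (fun v => absurd (var_globe_le v) (by omega))⟩)
        refine ⟨_, e', max_le (hdim h1) hdim', h4, fun b' hb'' _ => ⟨hb'', ?_⟩⟩
        have := congrArg (fun a : Ex k _ (globe h) => a.val h (𝟙 _)) h5
        simp only [Ex.res_val, Category.id_comp] at this
        exact congrArg (fc hb'' true) (hε.symm.trans this.symm)
      · have hh' : b < h + 1 := by omega
        obtain ⟨ε, hε⟩ := Ex.ex_mid (nw C G b (h + 1) hb' hh')
        obtain ⟨e', h4, h5⟩ := rp_step h2 hb hh (iL C G b (h + 1) hb' hh') ε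
          (Ex.compat_of (fun _ => by
            rw [← ε.tgt_q, hε, fc_fc, ← fc_iL_ax, Ex.push_val, ← ap_fc, ← ap_fc, h3])
            (fun v => (noq v).elim)) (by
          intro Z β ε' hc
          obtain ⟨β', h6, h7⟩ := fr_glue_ex hb' hh' β (ε'.q (𝟙 _)) (by
            rw [← fc_fc hh hk1 false true, ε'.tgt_q, ← Ex.c_val hc hbk.ne, Ex.push_val, ← ap_fc,
              ← ap_fc, h3])
          exact ⟨β', h6, Ex.globe_ext (fun h => absurd rfl h)
            (fun v => by rw [var_globe_self v, Ex.push_q, hε, h7])⟩)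
        refine ⟨_, e', max_le (hdim h1) (le_max_right _ _), h4,
          fun b' hb'' _ => ⟨Nat.lt_succ_of_lt hb'', ?_⟩⟩
        have := congrArg (fun a : Ex h _ (globe h) => a.q (𝟙 _)) h5
        simp only [Ex.res_q, Category.id_comp] at this
        refine (congrArg (fc (Nat.lt_succ_of_lt hb'') true) (hε.symm.trans this.symm)).trans ?_
        exact (fc_fc hb'' hk1 true true _).symm.trans (congrArg (fc hb'' true) (e'.tgt_q _))
    · intro hk
      have hk' : k < h := hk
      have fin : ∀ (P : Pasting h) (ε : Ex k (Fr C ((⟨h, P⟩ : Shape).glue k (k + 1) hk' hk1)) (globe h))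
          (e' : Ex k (Fr C ((⟨h, P⟩ : Shape).glue k (k + 1) hk' hk1)) (S.glue b h hb hh)),
          P.dim ≤ max (S.glue b h hb hh).dim (k + 1) → Rp k _ e' →
          Ex.res (S.inRight b h hb hh) e' = ε →
          ε.val h (𝟙 _) = ap (iL C ⟨h, P⟩ k (k + 1) hk' hk1) (ax C ⟨h, P⟩) →
          ε.q (faceMap hk' true) = nw C ⟨h, P⟩ k (k + 1) hk' hk1 →
          Inv1 C k (S.glue b h hb hh) hk := by
        intro P ε e' h1 h2 h3 h4 h5
        subst h3
        exact ⟨P, e', h1, h2, (congrArg (e'.val h) (Category.id_comp _)).symm.trans h4, h5⟩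
      rcases lt_trichotomy b k with hbk | rfl | hbk
      · obtain ⟨G, e, h1, h2, h3⟩ := ih0
        obtain ⟨hb', h3⟩ := h3 b hb hbk
        have noq : ∀ v : Var (globe b) k, False := fun v => absurd (var_globe_le v) (by omega)
        have hh' : b < k + 1 := by omega
        obtain ⟨ι, ε, c1, c2, c3, c4⟩ := closing (C := C) hk' (G.glue b (k + 1) hb' hh').pasting
        have hface : ∀ (Z : C.GlobModel) (ε' : Ex k Z (globe h)),
            fc hh false (ε'.val h (𝟙 _)) = fc hh' false (ε'.q (faceMap hk' false)) := by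
          intro Z ε'
          rw [← fc_fc hbk hk' false false, ε'.face _ _ _ _ _ (fun _ => rfl), Category.comp_id,
            ← ε'.tgt_q, fc_fc]
        obtain ⟨e', h4, h5⟩ := rp_step h2 hb hh (iL C G b (k + 1) hb' hh' ≫ ι) ε
          (Ex.compat_of (fun _ => by
            rw [hface, c2, Ex.push_val, ← ap_fc, ← h3, ap_comp, ap_fc, fc_iL_ax]
            exact ap_fc ι hh' false _) (fun v => (noq v).elim)) (by
          intro Z β ε' hc
          obtain ⟨β1, h6, h7⟩ := fr_glue_ex hb' hh' β (ε'.q (faceMap hk' false)) (by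
            rw [← hface, ← Ex.c_val hc hbk.ne, Ex.push_val, ← ap_fc, ← ap_fc, h3])
          obtain ⟨β', h8, h9⟩ := c4 Z β1 ε' h7.symm
          exact ⟨β', by rw [Category.assoc, ← h6]; exact congrArg _ h8, h9⟩)
        exact fin _ ε e' (max_le (max_le (hdim h1) (le_max_right _ _)) hdim') h4 h5 c1 c3
      · obtain ⟨P, e, h1, h2, h3, h4⟩ := ih.2 hb
        obtain ⟨ι, ε, c1, c2, c3, c4⟩ := closing (C := C) hk'
          ((⟨S.last, P⟩ : Shape).glue b (b + 1) hb hk1).pasting
        obtain ⟨e', h5, h6⟩ := rp_step h2 hb hh ι ε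
          (Ex.compat_of (fun h => absurd rfl h) (fun v => by
            rw [var_globe_self v, Category.id_comp, Category.id_comp, c2, Ex.push_q, hinge_eq, h4]
            rfl)) (by
          intro Z β ε' hc
          refine c4 Z β ε' ?_
          have := Ex.c_q hc (𝟙 _)
          rw [Category.id_comp, Category.id_comp, Ex.push_q, hinge_eq, h4] at this
          exact this.symm)
        exact fin _ ε e' (max_le (max_le (hdim h1) (le_max_right _ _)) hdim') h5 h6 c1 c3
      · have hkS : k < S.last := hbk.trans hb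
        obtain ⟨P, e, h1, h2, h3, h4⟩ := ih.2 hkS
        let G0 : Shape := ⟨S.last, P⟩
        let G0' : Shape := G0.glue b h hb hh
        let i0 := iL C G0 b h hb hh
        let i1 := iL C G0' k (k + 1) hk' hk1
        have e0 : ∀ b', fc hkS b' (ap i0 (ax C G0)) = fc hk' b' (nw C G0 b h hb hh) := fun b' =>
          (fc_fc hbk hb b' true _).symm.trans
            ((congrArg (fc hbk b') (fc_iL_ax C G0 b h hb hh)).trans (fc_fc hbk hh b' false _))
        obtain ⟨ι, hι1, hι2⟩ := fr_glue_ex (S := G0) hkS hk1 (i0 ≫ i1)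
          (nw C G0' k (k + 1) hk' hk1)
          ((ap_fc i1 hkS true _).symm.trans ((congrArg (ap i1) (e0 true)).trans
            ((ap_fc i1 hk' true _).trans (fc_iL_ax C G0' k (k + 1) hk' hk1))))
        have hιv : ap ι (e.val _ (apexVar S)) = ap i1 (ap i0 (ax C G0)) := by
          rw [h3, ← ap_comp, hι1]; rfl
        obtain ⟨ε, c1, c2, c3⟩ := Ex.ex_tri (X := Fr C (G0'.glue k (k + 1) hk' hk1)) (hk := hk')
          ⟨ap ι (e.q (faceMap hkS false ≫ apexVar S)), ap i1 (nw C G0 b h hb hh),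
            nw C G0' k (k + 1) hk' hk1, by
              rw [← ap_fc, e.tgt_q, ← e.face _ _ _ _ _ (fun _ => rfl), ap_fc, hιv, ← ap_fc, e0,
                ap_fc], (fc_iL_ax C G0' k (k + 1) hk' hk1).symm⟩
        simp only at c1 c2 c3
        obtain ⟨e', h5, h6⟩ := rp_step h2 hb hh ι ε
          (Ex.compat_of (fun _ => by
            rw [Ex.push_val, hιv, c1, ← ap_fc i1, ← ap_fc i1]
            exact congrArg (ap i1) (fc_iL_ax C G0 b h hb hh)) (fun v => by
            obtain ⟨b', rfl⟩ := var_globe_lt hbk v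
            rw [hinge_eq, faceMap_comp'_assoc, faceMap_comp, Ex.push_q]
            cases b'
            · exact c2.symm
            · rw [h4, c3, hι2])) (by
          intro Z β ε' hc
          have q1 : ∀ b', ap β (e.q (faceMap hkS b' ≫ apexVar S)) = ε'.q (faceMap hk' b') := by
            intro b'
            have := Ex.c_q hc (faceMap hbk b')
            rwa [hinge_eq, faceMap_comp'_assoc, faceMap_comp, Ex.push_q] at this
          obtain ⟨β0, h7, h8⟩ := fr_glue_ex (S := G0) hb hh (iL C G0 k (k + 1) hkS hk1 ≫ β)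
            (ε'.val h (𝟙 _)) (by
              rw [← Ex.c_val hc hbk.ne', Ex.push_val, h3]; rfl)
          obtain ⟨β', h9, h10⟩ := fr_glue_ex (S := G0') hk' hk1 β0 (ε'.q (faceMap hk' true)) (by
            have := ε'.face_k h hk' (𝟙 _)
            rw [Category.comp_id, ← h8] at this
            exact this)
          have hβ : ι ≫ β' = β := by
            apply fr_glue_ext (S := G0) hkS hk1
            · rw [← Category.assoc, hι1, Category.assoc, ← h7]
              exact congrArg _ h9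
            · rw [ap_comp, hι2, h10, ← q1, h4]
          refine ⟨β', hβ, Ex.globe_ext (fun _ => ?_) (fun v => ?_)⟩
          · rw [Ex.push_val, c1, ← h8, ← h9]; rfl
          · obtain ⟨b', rfl⟩ := var_globe_lt hk' v
            cases b'
            · rw [Ex.push_q, c2, ← q1, ← hβ]; rfl
            · rw [Ex.push_q, c3, h10])
        exact fin G0'.pasting ε e' (max_le (hdim h1) hdim') h5 h6 c1 c3

theorem exists_expansion (k : ℕ) (S : Shape) : ∃ (G : Shape) (e : Ex k (Fr C G) S),
    G.dim ≤ max S.dim (k + 1) ∧ Rp k G e := by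
  obtain ⟨G, e, h1, h2, -⟩ := (inv_all (C := C) k S).1
  exact ⟨G, e, h1, h2⟩

end

end Crest.Agent.R248
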