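import Crest.Agent.R248.Main

/-! Translation to the statement about weak equivalences. -/

set_option autoImplicit false
set_option linter.unusedVariables false
open CategoryTheory CategoryTheory.Limits Opposite Crest.GeometryTopology.Coherator
universe u

namespace Crest.Agent.R248

open GlobTheory

theorem final {C : GlobTheory.{u}} (hC : C.IsCoheratorTheory) (e : C.UnitChoice)
    {X : C.GlobModel} (hX : X.IsCellularModel) {n : ℕ}
    (a : GlobTheory.GlobModel.diskModel C n ⟶ X)
    {Y : C.GlobModel} (i : X ⟶ Y) (b : GlobTheory.GlobModel.diskModel C (n + 1) ⟶ Y)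
    (sq : IsPushout a (GlobTheory.GlobModel.sourceIncl C n) i b) :
    GlobTheory.GlobModel.IsWeakEquiv e i := by
  have hsrc : ∀ {Z : C.GlobModel} (f : GlobModel.diskModel C (n + 1) ⟶ Z),
      ap (GlobModel.sourceIncl C n ≫ f) (univ C (Shape.globe n)) =
        fc (Nat.lt_add_one n) false (ap f (univ C (Shape.globe (n + 1)))) := by
    intro Z f
    refine Eq.trans ?_ (ap_fc f _ _ _)
    exact congrArg (ap f) ((C.one_seq _).trans (C.seq_one _).symm)
  have hW : IsWh n i (I := Unit) (fun _ => ap a (univ C (Shape.globe n)))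
      (fun _ => ap b (univ C (Shape.globe (n + 1)))) := by
    refine ⟨fun _ => ?_, fun Z g w hw => ?_, fun Z h h' h1 h2 => ?_⟩
    · rw [← hsrc, ← sq.w]; rfl
    · have hc : a ≫ g = GlobModel.sourceIncl C n ≫ cls (X := Z) (w ()) := by
        apply fr_hom_ext
        refine Eq.trans ?_ (hsrc _).symm
        exact (hw ()).symm.trans (congrArg _ (ap_cls_univ _).symm)
      refine ⟨sq.desc g (cls (X := Z) (w ())) hc, sq.inl_desc _ _ _, fun _ => ?_⟩
      exact (congrArg (fun f => ap f (univ C (Shape.globe (n + 1)))) (sq.inr_desc g _ hc)).trans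
        (ap_cls_univ _)
    · exact sq.hom_ext h1 (fr_hom_ext (h2 ()))
  obtain ⟨r, hr, hrel⟩ := wh_rel_all hC hW (cof_cellular hX)
  have hri : ∀ {S : Shape} (x : V X S), ap r (ap i x) = x := fun x => by
    rw [← ap_comp, hr, ap_id]
  refine ⟨⟨?_, ?_⟩, fun x m => ⟨?_, ?_⟩⟩
  · refine Function.LeftInverse.injective (g := GlobModel.componentsMap r) ?_
    rintro ⟨x⟩
    exact congrArg (Quot.mk _) (hri x)
  · rintro ⟨t⟩
    exact ⟨Quot.mk _ (ap r t), Quot.sound (hrel 0 t (fun j h => absurd h (Nat.not_lt_zero j)))⟩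
  · have hb : ∀ k, ap r (Y.basePoint e ((GlobModel.cellsMap i).app 0 x) k) = X.basePoint e x k := by
      intro k
      induction k with
      | zero => exact hri x
      | succ k ih => exact (ap_act r (e.unit k) _).trans (congrArg _ ih)
    let g : Y.LoopsAt e ((GlobModel.cellsMap i).app 0 x) m → X.LoopsAt e x m := fun z =>
      ⟨ap r z.1, (ap_fc r (Nat.lt_add_one m) false z.1).symm.trans
          ((congrArg (ap r) z.2.1).trans (hb m)),
        (ap_fc r (Nat.lt_add_one m) true z.1).symm.trans ((congrArg (ap r) z.2.2).trans (hb m))⟩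
    refine Function.LeftInverse.injective (g := Quot.map g (fun z z' h => Rel.map r h)) ?_
    rintro ⟨z⟩
    exact congrArg (Quot.mk _) (Subtype.ext (hri z.1))
  · have hb : ∀ k, ap i (X.basePoint e x k) = Y.basePoint e ((GlobModel.cellsMap i).app 0 x) k := by
      intro k
      induction k with
      | zero => rfl
      | succ k ih => exact (ap_act i (e.unit k) _).trans (congrArg _ ih)
    rintro ⟨t⟩
    have h1 : fc (X := Y) (Nat.lt_add_one m) false t.1 = ap i (X.basePoint e x m) :=
      t.2.1.trans (hb m).symm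
    have h2 : fc (X := Y) (Nat.lt_add_one m) true t.1 = ap i (X.basePoint e x m) :=
      t.2.2.trans (hb m).symm
    refine ⟨Quot.mk _ ⟨ap r t.1,
      (ap_fc r (Nat.lt_add_one m) false t.1).symm.trans ((congrArg (ap r) h1).trans (hri _)),
      (ap_fc r (Nat.lt_add_one m) true t.1).symm.trans ((congrArg (ap r) h2).trans (hri _))⟩,
      Quot.sound (hrel (m + 1) t.1 (fun j h c => ?_))⟩
    rcases Nat.lt_succ_iff_lt_or_eq.1 h with h' | rfl
    · exact ⟨fc (X := X) h' c (X.basePoint e x m),
        (fc_fc (X := Y) h' (Nat.lt_add_one m) c false t.1).symm.trans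
          ((congrArg (fc h' c) h1).trans (ap_fc i h' c _).symm)⟩
    · cases c
      · exact ⟨_, h1⟩
      · exact ⟨_, h2⟩

end Crest.Agent.R248
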