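import Crest.Agent.R248.LocFun

/-! Truncated maps, relative homotopies, and the coskeleton model. -/

set_option autoImplicit false
set_option linter.unusedVariables false
open CategoryTheory CategoryTheory.Limits Opposite Crest.GeometryTopology.Coherator
universe u

namespace Crest.Agent.R248

open GlobTheory Shape

noncomputable section

variable {C : GlobTheory.{u}}

/-- truncated globular maps from a shape to a model -/
@[ext]
structure TM (n : ℕ) (X : C.GlobModel) (S : Shape) : Type u where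
  val : ∀ i, i ≤ n → Var S i → Cl X i
  face : ∀ i j (h : j < i) (hi : i ≤ n) b v,
    fc h b (val i hi v) = val j (h.le.trans hi) (faceMap h b ≫ v)

namespace TM

variable {n : ℕ} {X Y Z : C.GlobModel} {R S T : Shape}

lemma ext' {x y : TM n X S} (h : ∀ i hi v, x.val i hi v = y.val i hi v) : x = y := by
  ext i hi v; exact h i hi v

/-- restriction -/
def res (f : S ⟶ T) (x : TM n X T) : TM n X S where
  val i hi v := x.val i hi (v ≫ f)
  face i j h hi b v := by rw [x.face, Category.assoc]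

@[simp] lemma res_val (f : S ⟶ T) (x : TM n X T) (i : ℕ) (hi : i ≤ n) (v : Var S i) :
    (res f x).val i hi v = x.val i hi (v ≫ f) := rfl

/-- image -/
def push (g : X ⟶ Y) (x : TM n X S) : TM n Y S where
  val i hi v := ap g (x.val i hi v)
  face i j h hi b v := by rw [← ap_fc, x.face]

@[simp] lemma push_val (g : X ⟶ Y) (x : TM n X S) (i : ℕ) (hi : i ≤ n) (v : Var S i) :
    (push g x).val i hi v = ap g (x.val i hi v) := rfl

lemma glue_ex (S : Shape) (b h : ℕ) (hb : b < S.last) (hh : b < h) (x : TM n X S)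
    (z : TM n X (globe h)) (hxz : res (S.hinge hb) x = res (faceMap hh false) z) :
    ∃ y : TM n X (S.glue b h hb hh), res (S.inLeft b h hb hh) y = x ∧
      res (S.inRight b h hb hh) y = z := by
  choose f hf1 hf2 using fun i (hi : i ≤ n) => glue_desc S b h hb hh (x.val i hi) (z.val i hi)
    (fun w => congrArg (fun a : TM n X (globe b) => a.val i hi w) hxz)
  refine ⟨⟨f, fun i j h' hi b' v => ?_⟩, ext' hf1, ext' hf2⟩
  rcases glue_cases S b h hb hh v with ⟨w, rfl⟩ | ⟨w, rfl⟩
  · rw [hf1, x.face, ← Category.assoc, hf1]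
  · rw [hf2, z.face, ← Category.assoc, hf2]

lemma glue_ext (S : Shape) (b h : ℕ) (hb : b < S.last) (hh : b < h)
    (x y : TM n X (S.glue b h hb hh))
    (h1 : res (S.inLeft b h hb hh) x = res (S.inLeft b h hb hh) y)
    (h2 : res (S.inRight b h hb hh) x = res (S.inRight b h hb hh) y) : x = y := by
  refine ext' fun i hi v => ?_
  rcases glue_cases S b h hb hh v with ⟨w, rfl⟩ | ⟨w, rfl⟩
  · exact congrArg (fun a : TM n X S => a.val i hi w) h1
  · exact congrArg (fun a : TM n X (globe h) => a.val i hi w) h2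

lemma globe_ext {m : ℕ} {x y : TM n X (globe m)}
    (h1 : ∀ i (h : i < m) b, res (faceMap h b) x = res (faceMap h b) y)
    (h2 : ∀ hm, x.val m hm (𝟙 _) = y.val m hm (𝟙 _)) : x = y := by
  refine ext' fun i hi v => ?_
  induction i, v using globe_ind with
  | h1 => exact h2 hi
  | h2 i h b =>
    have := congrArg (fun a : TM n X (globe i) => a.val i hi (𝟙 _)) (h1 i h b)
    simpa using this

/-- a truncated map on a globe from a boundary family and a top cell -/
lemma globe_ex {m : ℕ} (s : ∀ i, i < m → Bool → TM n X (globe i))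
    (hs : ∀ i j (h : j < i) (hi : i < m) b b', res (faceMap h b) (s i hi b') = s j (h.trans hi) b)
    (x : m ≤ n → Cl X m)
    (hx : ∀ hm i (h : i < m) b, fc h b (x hm) = (s i h b).val i (h.le.trans hm) (𝟙 _)) :
    ∃ y : TM n X (globe m), (∀ i h b, res (faceMap h b) y = s i h b) ∧
      ∀ hm, y.val m hm (𝟙 _) = x hm := by
  let f : ∀ i, Var (globe m) i → i ≤ n → Cl X i :=
    globeRec (β := fun i => i ≤ n → Cl X i) x (fun i h b hi => (s i h b).val i hi (𝟙 _))
  have hf : ∀ i (h : i < m) b j (hj : j ≤ n) (v : Var (globe i) j),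
      f j (v ≫ faceMap h b) hj = (s i h b).val j hj v := by
    intro i h b j hj v
    induction j, v using globe_ind with
    | h1 => rw [Category.id_comp]; rfl
    | h2 j h' b' =>
      rw [faceMap_comp]
      show (s j _ b').val j hj (𝟙 _) = _
      rw [← hs i j h' h b' b, res_val, Category.id_comp]
  refine ⟨⟨fun i hi v => f i v hi, fun i j h hi b v => ?_⟩, fun i h b => ext' (hf i h b),
    fun hm => rfl⟩
  induction i, v using globe_ind with
  | h1 => rw [Category.comp_id]; exact hx hi j h b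
  | h2 i h' b' =>
    rw [hf i h' b' j, ← Category.comp_id (faceMap h b), ← (s i h' b').face i j h hi]
    rfl

end TM

/-- truncation of a tuple -/
def tr (n : ℕ) {X : C.GlobModel} {S : Shape} (ξ : V X S) : TM n X S where
  val i _ v := ev X v ξ
  face i j h hi b v := fc_ev h b v ξ

@[simp] lemma tr_val (n : ℕ) {X : C.GlobModel} {S : Shape} (ξ : V X S) (i : ℕ) (hi : i ≤ n)
    (v : Var S i) : (tr n ξ).val i hi v = ev X v ξ := rfl

lemma res_tr (n : ℕ) {X : C.GlobModel} {S T : Shape} (f : S ⟶ T) (ξ : V X T) :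
    TM.res f (tr n ξ) = tr n (ev X f ξ) := TM.ext' fun i hi v => ev_comp X v f ξ

lemma push_tr (n : ℕ) {X Y : C.GlobModel} (g : X ⟶ Y) {S : Shape} (ξ : V X S) :
    TM.push g (tr n ξ) = tr n (ap g ξ) := TM.ext' fun i hi v => ap_ev g v ξ

lemma tr_inj {n : ℕ} {X : C.GlobModel} {S : Shape} (hS : S.dim ≤ n) {ξ ξ' : V X S}
    (h : tr n ξ = tr n ξ') : ξ = ξ' :=
  V_ext X S fun i v => congrArg (fun a : TM n X S => a.val i ((var_le_dim S i v).trans hS) v) h

lemma tr_surj {n : ℕ} {X : C.GlobModel} {S : Shape} (hS : S.dim ≤ n) (ζ : TM n X S) :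
    ∃ ξ, tr n ξ = ζ := by
  obtain ⟨ξ, hξ⟩ := V_exists X S (fun i v => ζ.val i ((var_le_dim S i v).trans hS) v)
    (fun i j h b v => ζ.face i j h _ b v)
  exact ⟨ξ, TM.ext' fun i hi v => hξ i v⟩

/-- the coskeleton construction -/
def LK (C : GlobTheory.{u}) (n : ℕ) : LocFun C where
  H := TM n
  res := TM.res
  res_id x := TM.ext' fun i hi v => by simp
  res_comp f g x := TM.ext' fun i hi v => by simp
  push g _ x := TM.push g x
  push_res g _ _ f x := rfl
  glue_ext := TM.glue_ext
  glue_ex := TM.glue_ex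

theorem exists_K (hC : C.IsCoheratorTheory) (n : ℕ) : ∃ K : (LK C n).ActStr,
    ∀ {S T : Shape} (o : C.arr S T) (X : C.GlobModel) (ξ : V X T),
      K.A o X (tr n ξ) = tr n (act X o ξ) := by
  refine (LK C n).exists_act
    (fun {S T} o Φ => ∀ (X : C.GlobModel) (ξ : V X T), Φ X (tr n ξ) = tr n (act X o ξ))
    ?_ ?_ hC ?_ ?_
  · intro R S T o o' Φ Ψ h1 h2 X ξ
    simp only
    rw [h2, h1, act_seq]
  · intro S T f X ξ
    exact res_tr n f ξ
  · intro S b h hb hh T o Φ h1 h2 X ξ
    apply TM.glue_ext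
    · rw [res_tr, ev_act]; exact h1 X ξ
    · rw [res_tr, ev_act]; exact h2 X ξ
  · intro m S hS θ F G hF hG gF gG hFG
    by_cases hm : m + 1 ≤ n
    · choose u hu using fun (X : C.GlobModel) (ζ : TM n X S) => tr_surj (hS.trans hm) ζ
      have hu' : ∀ (X : C.GlobModel) (ξ : V X S), u X (tr n ξ) = ξ := fun X ξ => tr_inj (hS.trans hm) (hu X _)
      refine ⟨fun X ζ => tr n (act X θ (u X ζ)), fun X Y g ζ => ?_, fun X ξ => ?_, fun X ζ => ?_⟩
      · obtain ⟨ξ, rfl⟩ := tr_surj (hS.trans hm) ζ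
        show TM.push g (tr n _) = tr n (act Y θ (u Y (TM.push g (tr n ξ))))
        rw [push_tr, push_tr, hu', hu', ap_act]
      · simp only [hu']
      · obtain ⟨ξ, rfl⟩ := tr_surj (hS.trans hm) ζ
        beta_reduce
        rw [gF, gG, hu']
        exact ⟨(res_tr _ _ _).trans (congrArg _ (ev_act _ _ _ _)),
          (res_tr _ _ _).trans (congrArg _ (ev_act _ _ _ _))⟩
    · have hext : ∀ (X : C.GlobModel) (x y : TM n X (globe (m + 1))), TM.res (σ m) x = TM.res (σ m) y →
          TM.res (τ m) x = TM.res (τ m) y → x = y := by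
        intro X x y h1 h2
        refine TM.globe_ext (fun i h b => ?_) (fun h => absurd h hm)
        exact ((LK C n).res_eq_sph x i h b).trans ((congrArg₂
          (fun a c => (LK C n).sph a c i h b) h1 h2).trans ((LK C n).res_eq_sph y i h b).symm)
      choose Θ hΘ1 hΘ2 using fun (X : C.GlobModel) (ζ : TM n X S) => TM.globe_ex
        ((LK C n).sph (F X ζ) (G X ζ)) ((LK C n).sph_compat (fun i h b => hFG i h b X ζ))
        (fun h => absurd h hm) (fun h => absurd h hm)
      have hσ : ∀ X ζ, TM.res (σ m) (Θ X ζ) = F X ζ := fun X ζ =>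
        (hΘ1 X ζ m _ false).trans ((LK C n).sph_top _ _ _ _)
      have hτ : ∀ X ζ, TM.res (τ m) (Θ X ζ) = G X ζ := fun X ζ =>
        (hΘ1 X ζ m _ true).trans ((LK C n).sph_top _ _ _ _)
      refine ⟨Θ, fun X Y g ζ => hext _ _ _ ?_ ?_, fun X ξ => hext _ _ _ ?_ ?_,
        fun X ζ => ⟨hσ X ζ, hτ X ζ⟩⟩
      · rw [hσ, ← hF, ← hσ]; rfl
      · rw [hτ, ← hG, ← hτ]; rfl
      · rw [hσ, gF, res_tr, ev_act]
      · rw [hτ, gG, res_tr, ev_act]

/-- partial relative homotopies: fillers in dimensions `k ≤ i < r` -/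
@[ext]
structure HP (O : Ops C) (k n r : ℕ) (hr : r ≤ n + 1) (X : C.GlobModel) (S : Shape) : Type u where
  bot : TM n X S
  fil : ∀ i, k ≤ i → i < r → Var S i → Cl X (i + 1)
  src_fil : ∀ i hk hi v, ∂₀ (fil i hk hi v) =
    O.Tr k i (fun j hk' hj b => fil j hk' (hj.trans hi) (faceMap hj b ≫ v))
      (bot.val i (Nat.le_of_lt_succ (hi.trans_le hr)) v)

namespace HP

variable {O : Ops C} {k n r : ℕ} {hr : r ≤ n + 1} {X Y Z : C.GlobModel} {R S T : Shape}

lemma ext' {x y : HP O k n r hr X S} (h1 : x.bot = y.bot)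
    (h : ∀ i hk hi v, x.fil i hk hi v = y.fil i hk hi v) : x = y := by
  ext1
  · exact h1
  · funext i hk hi v; exact h i hk hi v

/-- side data at a variable -/
abbrev side (x : HP O k n r hr X S) {i : ℕ} (hi : i ≤ r) (v : Var S i) :
    Ops.Side X k i := fun j hk' hj b => x.fil j hk' (hj.trans_le hi) (faceMap hj b ≫ v)

/-- bottom boundary at a variable -/
abbrev bs (x : HP O k n r hr X S) {i : ℕ} (hi : i ≤ r) (v : Var S i) :
    ∀ j, j < i → Bool → Cl X j := fun j hj b =>
  x.bot.val j (Nat.le_of_lt_succ ((hj.trans_le hi).trans_le hr)) (faceMap hj b ≫ v)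

lemma valid (x : HP O k n r hr X S) {i : ℕ} (hi : i ≤ r) (v : Var S i) :
    O.Valid k i (x.side hi v) (x.bs hi v) := by
  constructor
  · intro a j h ha b b'
    rw [x.bot.face, faceMap_comp'_assoc]
  · intro j hk hj b
    rw [x.src_fil]
    simp only [faceMap_comp'_assoc]

lemma ov (x : HP O k n r hr X S) {i : ℕ} (hi : i ≤ r) (hn : i ≤ n) (v : Var S i) :
    Ops.Ov le_rfl (x.bot.val i hn v) (x.bs hi v) := fun j hj b => x.bot.face _ _ _ _ _ _

/-- restriction -/
def res (f : S ⟶ T) (x : HP O k n r hr X T) : HP O k n r hr X S where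
  bot := x.bot.res f
  fil i hk hi v := x.fil i hk hi (v ≫ f)
  src_fil i hk hi v := by
    rw [x.src_fil]
    simp only [Category.assoc, TM.res_val]

@[simp] lemma res_bot (f : S ⟶ T) (x : HP O k n r hr X T) : (res f x).bot = x.bot.res f := rfl

@[simp] lemma res_fil (f : S ⟶ T) (x : HP O k n r hr X T) (i : ℕ) (hk : k ≤ i) (hi : i < r)
    (v : Var S i) : (res f x).fil i hk hi v = x.fil i hk hi (v ≫ f) := rfl

lemma ap_Tr_side (g : X ⟶ Y) (x : HP O k n r hr X S) {i : ℕ} (hi : i ≤ r) (hn : i ≤ n)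
    (v : Var S i) : ap g (O.Tr k i (x.side hi v) (x.bot.val i hn v)) =
      O.Tr k i (fun j hk hj b => ap g (x.side hi v j hk hj b)) (ap g (x.bot.val i hn v)) :=
  Ops.ap_Tr g k i _ _ (x.valid hi v) i le_rfl _ (x.ov hi hn v)

/-- image -/
def push (g : X ⟶ Y) (x : HP O k n r hr X S) : HP O k n r hr Y S where
  bot := x.bot.push g
  fil i hk hi v := ap g (x.fil i hk hi v)
  src_fil i hk hi v := by
    rw [← ap_fc, x.src_fil]
    exact x.ap_Tr_side g hi.le _ v

@[simp] lemma push_bot (g : X ⟶ Y) (x : HP O k n r hr X S) : (push g x).bot = x.bot.push g := rfl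

@[simp] lemma push_fil (g : X ⟶ Y) (x : HP O k n r hr X S) (i : ℕ) (hk : k ≤ i) (hi : i < r)
    (v : Var S i) : (push g x).fil i hk hi v = ap g (x.fil i hk hi v) := rfl

lemma push_comp (g : X ⟶ Y) (g' : Y ⟶ Z) (x : HP O k n r hr X S) :
    push (g ≫ g') x = push g' (push g x) := rfl

lemma glue_ext (S : Shape) (b h : ℕ) (hb : b < S.last) (hh : b < h)
    (x y : HP O k n r hr X (S.glue b h hb hh))
    (h1 : res (S.inLeft b h hb hh) x = res (S.inLeft b h hb hh) y)
    (h2 : res (S.inRight b h hb hh) x = res (S.inRight b h hb hh) y) : x = y := by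
  refine ext' (TM.glue_ext S b h hb hh _ _ (congrArg HP.bot h1) (congrArg HP.bot h2))
    fun i hk hi v => ?_
  rcases glue_cases S b h hb hh v with ⟨w, rfl⟩ | ⟨w, rfl⟩
  · exact congrArg (fun a : HP O k n r hr X S => a.fil i hk hi w) h1
  · exact congrArg (fun a : HP O k n r hr X (globe h) => a.fil i hk hi w) h2

lemma glue_ex (S : Shape) (b h : ℕ) (hb : b < S.last) (hh : b < h) (x : HP O k n r hr X S)
    (z : HP O k n r hr X (globe h)) (hxz : res (S.hinge hb) x = res (faceMap hh false) z) :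
    ∃ y : HP O k n r hr X (S.glue b h hb hh), res (S.inLeft b h hb hh) y = x ∧
      res (S.inRight b h hb hh) y = z := by
  obtain ⟨y, hy1, hy2⟩ := TM.glue_ex S b h hb hh x.bot z.bot (congrArg HP.bot hxz)
  choose f hf1 hf2 using fun i (hk : k ≤ i) (hi : i < r) =>
    glue_desc S b h hb hh (x.fil i hk hi) (z.fil i hk hi)
      (fun w => congrArg (fun a : HP O k n r hr X (globe b) => a.fil i hk hi w) hxz)
  refine ⟨⟨y, f, fun i hk hi v => ?_⟩, ext' hy1 hf1, ext' hy2 hf2⟩
  rcases glue_cases S b h hb hh v with ⟨w, rfl⟩ | ⟨w, rfl⟩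
  · rw [hf1, x.src_fil, ← hy1]
    simp only [← Category.assoc, hf1, TM.res_val]
  · rw [hf2, z.src_fil, ← hy2]
    simp only [← Category.assoc, hf2, TM.res_val]

lemma globe_ext {m : ℕ} {x y : HP O k n r hr X (globe m)}
    (h1 : ∀ i (h : i < m) b, res (faceMap h b) x = res (faceMap h b) y)
    (h2 : ∀ hm, x.bot.val m hm (𝟙 _) = y.bot.val m hm (𝟙 _))
    (h3 : ∀ hk hm, x.fil m hk hm (𝟙 _) = y.fil m hk hm (𝟙 _)) : x = y := by
  refine ext' (TM.globe_ext (fun i h b => congrArg HP.bot (h1 i h b)) h2) fun i hk hi v => ?_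
  induction i, v using globe_ind with
  | h1 => exact h3 hk hi
  | h2 i h b =>
    have := congrArg (fun a : HP O k n r hr X (globe i) => a.fil i hk hi (𝟙 _)) (h1 i h b)
    simpa using this

/-- side data of a boundary family of cylinders -/
abbrev sphSide {m : ℕ} (hm : m ≤ r) (s : ∀ i, i < m → Bool → HP O k n r hr X (globe i)) :
    Ops.Side X k m := fun j hk hj b => (s j hj b).fil j hk (hj.trans_le hm) (𝟙 _)

lemma globe_ex {m : ℕ} (s : ∀ i, i < m → Bool → HP O k n r hr X (globe i))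
    (hs : ∀ i j (h : j < i) (hi : i < m) b b', res (faceMap h b) (s i hi b') = s j (h.trans hi) b)
    (z : TM n X (globe m)) (hz : ∀ i h b, TM.res (faceMap h b) z = (s i h b).bot)
    (w : k ≤ m → m < r → Cl X (m + 1))
    (hw : ∀ hk hm, ∂₀ (w hk hm) = O.Tr k m (sphSide hm.le s)
      (z.val m (Nat.le_of_lt_succ (hm.trans_le hr)) (𝟙 _))) :
    ∃ y : HP O k n r hr X (globe m), (∀ i h b, res (faceMap h b) y = s i h b) ∧ y.bot = z ∧
      ∀ hk hm, y.fil m hk hm (𝟙 _) = w hk hm := by
  let f : ∀ i, Var (globe m) i → k ≤ i → i < r → Cl X (i + 1) :=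
    globeRec (β := fun i => k ≤ i → i < r → Cl X (i + 1)) w
      (fun i h b hk hi => (s i h b).fil i hk hi (𝟙 _))
  have hf : ∀ i (h : i < m) b j (hk : k ≤ j) (hj : j < r) (v : Var (globe i) j),
      f j (v ≫ faceMap h b) hk hj = (s i h b).fil j hk hj v := by
    intro i h b j hk hj v
    induction j, v using globe_ind with
    | h1 => rw [Category.id_comp]; rfl
    | h2 j h' b' =>
      rw [faceMap_comp]
      show (s j _ b').fil j hk hj (𝟙 _) = _
      rw [← hs i j h' h b' b, res_fil, Category.id_comp]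
  refine ⟨⟨z, fun i hk hi v => f i v hk hi, fun i hk hi v => ?_⟩,
    fun i h b => ext' (hz i h b) (hf i h b), rfl, fun hk hm => rfl⟩
  induction i, v using globe_ind with
  | h1 =>
    simp only [Category.comp_id]
    exact hw hk hi
  | h2 i h' b' =>
    show ∂₀ ((s i h' b').fil i hk hi (𝟙 _)) = _
    rw [(s i h' b').src_fil, ← hz]
    simp only [hf, Category.comp_id, TM.res_val, Category.id_comp]

end HP

namespace HP

variable {O : Ops C} {k n : ℕ} {X Y Z : C.GlobModel} {R S T : Shape}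

/-- the top of a full homotopy -/
def top (x : HP O k n (n + 1) le_rfl X S) : TM n X S where
  val i hi v := if hk : k ≤ i then ∂₁ (x.fil i hk (Nat.lt_succ_of_le hi) v) else x.bot.val i hi v
  face i j h hi b v := by
    by_cases hk : k ≤ i
    · rw [dif_pos hk, ← (par_src_tgt _) j h b, x.src_fil]
      exact (x.valid (Nat.le_succ_of_le hi) v).ov_Tr (x.ov _ hi v) j h b
    · rw [dif_neg hk, dif_neg (by omega), x.bot.face]

lemma top_hi (x : HP O k n (n + 1) le_rfl X S) {i : ℕ} (hk : k ≤ i) (hi : i ≤ n) (v : Var S i) :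
    x.top.val i hi v = ∂₁ (x.fil i hk (Nat.lt_succ_of_le hi) v) := dif_pos hk

lemma top_lo (x : HP O k n (n + 1) le_rfl X S) {i : ℕ} (hk : i < k) (hi : i ≤ n) (v : Var S i) :
    x.top.val i hi v = x.bot.val i hi v := dif_neg (by omega)

lemma res_top (f : S ⟶ T) (x : HP O k n (n + 1) le_rfl X T) : (res f x).top = x.top.res f := rfl

lemma push_top (g : X ⟶ Y) (x : HP O k n (n + 1) le_rfl X S) : (push g x).top = x.top.push g := by
  refine TM.ext' fun i hi v => ?_
  by_cases hk : k ≤ i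
  · rw [TM.push_val, top_hi _ hk, top_hi _ hk, ap_fc]; rfl
  · rw [TM.push_val, top_lo _ (by omega), top_lo _ (by omega)]; rfl

/-- parallel cylinders have related bottoms iff they have related tops -/
lemma rel_iff (hC : C.IsCoheratorTheory) {m : ℕ} (hm : m ≤ n)
    {x y : HP O k n (n + 1) le_rfl X (globe m)}
    (h : ∀ i (h : i < m) b, res (faceMap h b) x = res (faceMap h b) y) :
    Rel (x.bot.val m hm (𝟙 _)) (y.bot.val m hm (𝟙 _)) ↔
      Rel (x.top.val m hm (𝟙 _)) (y.top.val m hm (𝟙 _)) := by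
  by_cases hk : k ≤ m
  · have hm' : m ≤ n + 1 := Nat.le_succ_of_le hm
    have hside : y.side hm' (𝟙 _) = x.side hm' (𝟙 _) := by
      funext j hk' hj b
      have := congrArg (fun a : HP O k n (n + 1) le_rfl X (globe j) =>
        a.fil j hk' (hj.trans_le hm') (𝟙 _)) (h j hj b)
      simpa [side] using this.symm
    have hpar : Par (x.bot.val m hm (𝟙 _)) (y.bot.val m hm (𝟙 _)) := by
      intro j hj b
      have := congrArg (fun a : HP O k n (n + 1) le_rfl X (globe j) =>
        a.bot.val j (hj.le.trans hm) (𝟙 _)) (h j hj b)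
      rw [x.bot.face, y.bot.face]
      simpa using this
    have r1 : Rel (O.Tr k m (x.side hm' (𝟙 _)) (x.bot.val m hm (𝟙 _))) (x.top.val m hm (𝟙 _)) :=
      ⟨x.fil m hk _ _, x.src_fil _ _ _ _, (x.top_hi hk hm _).symm⟩
    have r2 : Rel (O.Tr k m (y.side hm' (𝟙 _)) (y.bot.val m hm (𝟙 _))) (y.top.val m hm (𝟙 _)) :=
      ⟨y.fil m hk _ _, y.src_fil _ _ _ _, (y.top_hi hk hm _).symm⟩
    rw [hside] at r2
    constructor
    · intro r
      exact (r1.symm hC).trans hC
        (((x.valid hm' (𝟙 _)).Tr_rel (x.ov hm' hm _) r).trans hC r2)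
    · intro r
      exact Ops.Tr_inj hC k m _ _ (x.valid hm' (𝟙 _)) m le_rfl _ _ (x.ov hm' hm _) hpar
        (r1.trans hC (r.trans hC (r2.symm hC)))
  · rw [x.top_lo (by omega), y.top_lo (by omega)]

end HP

/-- the path construction -/
def LQ (O : Ops C) (k n : ℕ) : LocFun C where
  H := HP O k n (n + 1) le_rfl
  res := HP.res
  res_id x := HP.ext' ((LK C n).res_id x.bot) fun i hk hi v => by simp
  res_comp f g x := HP.ext' ((LK C n).res_comp f g x.bot) fun i hk hi v => by simp
  push g _ x := HP.push g x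
  push_res g _ _ f x := rfl
  glue_ext := HP.glue_ext
  glue_ex := HP.glue_ex

end

end Crest.Agent.R248
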