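import Crest.Agent.R248.Transport

/-! Natural model structures on local constructions. -/

set_option autoImplicit false
set_option linter.unusedVariables false
open CategoryTheory CategoryTheory.Limits Opposite Crest.GeometryTopology.Coherator
universe u

namespace Crest.Agent.R248

open GlobTheory Shape

variable {C : GlobTheory.{u}}

/-- A construction on models, contravariant in shapes and sending gluings to pullbacks. -/
structure LocFun (C : GlobTheory.{u}) where
  H : C.GlobModel → Shape → Type u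
  res : ∀ {X : C.GlobModel} {S T : Shape}, (S ⟶ T) → H X T → H X S
  res_id : ∀ {X : C.GlobModel} {S : Shape} (x : H X S), res (𝟙 S) x = x
  res_comp : ∀ {X : C.GlobModel} {R S T : Shape} (f : R ⟶ S) (g : S ⟶ T) (x : H X T),
    res (f ≫ g) x = res f (res g x)
  push : ∀ {X Y : C.GlobModel} (g : X ⟶ Y) {S : Shape}, H X S → H Y S
  push_res : ∀ {X Y : C.GlobModel} (g : X ⟶ Y) {S T : Shape} (f : S ⟶ T) (x : H X T),
    push g (res f x) = res f (push g x)
  glue_ext : ∀ {X : C.GlobModel} (S : Shape) b h hb hh (x y : H X (S.glue b h hb hh)),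
    res (S.inLeft b h hb hh) x = res (S.inLeft b h hb hh) y →
    res (S.inRight b h hb hh) x = res (S.inRight b h hb hh) y → x = y
  glue_ex : ∀ {X : C.GlobModel} (S : Shape) b h hb hh (x : H X S) (z : H X (globe h)),
    res (S.hinge hb) x = res (faceMap hh false) z →
    ∃ y : H X (S.glue b h hb hh), res (S.inLeft b h hb hh) y = x ∧ res (S.inRight b h hb hh) y = z

namespace LocFun

variable (L : LocFun C)

/-- families of operations -/
abbrev Fam (S T : Shape) := ∀ X : C.GlobModel, L.H X T → L.H X S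

/-- naturality of a family -/
def IsNat {S T : Shape} (Φ : L.Fam S T) : Prop :=
  ∀ (X Y : C.GlobModel) (g : X ⟶ Y) x, L.push g (Φ X x) = Φ Y (L.push g x)

/-- a natural action of the theory -/
structure ActStr where
  A : ∀ {S T : Shape}, C.arr S T → L.Fam S T
  A_one : ∀ S X x, A (C.one S) X x = x
  A_seq : ∀ {R S T : Shape} (o : C.arr R S) (o' : C.arr S T) X x,
    A (C.seq o o') X x = A o X (A o' X x)
  A_ofShape : ∀ {S T : Shape} (f : S ⟶ T) X x, A (C.ofShape f) X x = L.res f x
  A_nat : ∀ {S T : Shape} (o : C.arr S T), L.IsNat (A o)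

lemma C_pair_ex (S : Shape) (b h : ℕ) (hb : b < S.last) (hh : b < h) (T : Shape) (f : C.arr S T)
    (g : C.arr (globe h) T)
    (hfg : C.seq (C.ofShape (S.hinge hb)) f = C.seq (C.ofShape (faceMap hh false)) g) :
    ∃ p : C.arr (S.glue b h hb hh) T, C.seq (C.ofShape (S.inLeft b h hb hh)) p = f ∧
      C.seq (C.ofShape (S.inRight b h hb hh)) p = g :=
  V_glue_exists (Fr C T) S b h hb hh f g hfg

lemma C_pair_ext (S : Shape) (b h : ℕ) (hb : b < S.last) (hh : b < h) (T : Shape)
    (p q : C.arr (S.glue b h hb hh) T)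
    (h1 : C.seq (C.ofShape (S.inLeft b h hb hh)) p = C.seq (C.ofShape (S.inLeft b h hb hh)) q)
    (h2 : C.seq (C.ofShape (S.inRight b h hb hh)) p = C.seq (C.ofShape (S.inRight b h hb hh)) q) :
    p = q :=
  V_glue_ext (Fr C T) S b h hb hh h1 h2

section
variable (Good : ∀ {S T : Shape}, C.arr S T → L.Fam S T → Prop)
  (good_seq : ∀ {R S T : Shape} (o : C.arr R S) (o' : C.arr S T) Φ Ψ, Good o Φ → Good o' Ψ →
    Good (C.seq o o') (fun X x => Φ X (Ψ X x)))
  (good_res : ∀ {S T : Shape} (f : S ⟶ T), Good (C.ofShape f) (fun X x => L.res f x))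

/-- the large pre-theory of good natural families -/
def bigPre : PreTheory.{u + 1} where
  arr S T := {p : C.arr S T × L.Fam S T // L.IsNat p.2 ∧ Good p.1 p.2}
  one S := ⟨(C.one S, fun X x => x), fun _ _ _ _ => rfl, by
    have := good_res (𝟙 S)
    rw [C.ofShape_id] at this
    simpa only [L.res_id] using this⟩
  seq f g := ⟨(C.seq f.1.1 g.1.1, fun X x => f.1.2 X (g.1.2 X x)),
    fun X Y φ x => by simp only; rw [f.2.1, g.2.1], good_seq _ _ _ _ f.2.2 g.2.2⟩
  one_seq f := Subtype.ext (Prod.ext (C.one_seq _) rfl)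
  seq_one f := Subtype.ext (Prod.ext (C.seq_one _) rfl)
  seq_assoc f g h := Subtype.ext (Prod.ext (C.seq_assoc _ _ _) rfl)
  ofShape f := ⟨(C.ofShape f, fun X x => L.res f x), fun X Y φ x => L.push_res φ f x, good_res f⟩
  ofShape_id S := Subtype.ext (Prod.ext (C.ofShape_id S) (by funext X x; exact L.res_id x))
  ofShape_comp f g := Subtype.ext (Prod.ext (C.ofShape_comp f g)
    (by funext X x; exact L.res_comp f g x))

include good_seq good_res in
theorem exists_act (hC : C.IsCoheratorTheory)
    (good_pair : ∀ (S : Shape) b h hb hh (T : Shape) (o : C.arr (S.glue b h hb hh) T) Φ,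
      Good (C.seq (C.ofShape (S.inLeft b h hb hh)) o)
        (fun X x => L.res (S.inLeft b h hb hh) (Φ X x)) →
      Good (C.seq (C.ofShape (S.inRight b h hb hh)) o)
        (fun X x => L.res (S.inRight b h hb hh) (Φ X x)) → Good o Φ)
    (lift : ∀ (m : ℕ) (S : Shape), S.dim ≤ m + 1 → ∀ (θ : C.arr (globe (m + 1)) S)
      (F G : L.Fam (globe m) S), L.IsNat F → L.IsNat G →
      Good (C.seq (C.ofShape (σ m)) θ) F → Good (C.seq (C.ofShape (τ m)) θ) G →
      (∀ i (h : i < m) b X x, L.res (faceMap h b) (F X x) = L.res (faceMap h b) (G X x)) →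
      ∃ Θ : L.Fam (globe (m + 1)) S, L.IsNat Θ ∧ Good θ Θ ∧
        ∀ X x, L.res (σ m) (Θ X x) = F X x ∧ L.res (τ m) (Θ X x) = G X x) :
    ∃ A : L.ActStr, ∀ {S T : Shape} (o : C.arr S T), Good o (A.A o) := by
  let O : Over.{u, u + 1} C :=
    { E := L.bigPre Good good_seq good_res
      pair_ex := by
        intro S b h hb hh T f g hfg
        have h1 := congrArg (fun p => p.1.1) hfg
        have h2 := congrArg (fun p => p.1.2) hfg
        obtain ⟨o, ho1, ho2⟩ := C_pair_ex S b h hb hh T f.1.1 g.1.1 h1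
        choose Φ hΦ1 hΦ2 using fun X x => L.glue_ex S b h hb hh (f.1.2 X x) (g.1.2 X x)
          (congrFun (congrFun h2 X) x)
        refine ⟨⟨(o, Φ), ?_, ?_⟩, ?_, ?_⟩
        · intro X Y φ x
          apply L.glue_ext
          · simp only
            rw [← L.push_res, hΦ1, hΦ1, f.2.1]
          · simp only
            rw [← L.push_res, hΦ2, hΦ2, g.2.1]
        · apply good_pair
          · simp only [hΦ1, ho1]; exact f.2.2
          · simp only [hΦ2, ho2]; exact g.2.2
        · exact Subtype.ext (Prod.ext ho1 (by funext X x; exact hΦ1 X x))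
        · exact Subtype.ext (Prod.ext ho2 (by funext X x; exact hΦ2 X x))
      pair_ext := by
        intro S b h hb hh T p q h1 h2
        refine Subtype.ext (Prod.ext (C_pair_ext S b h hb hh T _ _
          (congrArg (fun p => p.1.1) h1) (congrArg (fun p => p.1.1) h2)) ?_)
        funext X x
        exact L.glue_ext S b h hb hh _ _ (congrFun (congrFun (congrArg (fun p => p.1.2) h1) X) x)
          (congrFun (congrFun (congrArg (fun p => p.1.2) h2) X) x)
      proj := fun p => p.1.1
      proj_one := fun _ => rfl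
      proj_seq := fun _ _ => rfl
      proj_ofShape := fun _ => rfl
      lift := by
        intro m S hS θ f g hfg h1 h2
        obtain ⟨Θ, hn, hg, hΘ⟩ := lift m S hS θ f.1.2 g.1.2 f.2.1 g.2.1 (h1 ▸ f.2.2) (h2 ▸ g.2.2)
          (fun i h b X x => congrFun (congrFun (congrArg (fun p => p.1.2) (hfg i h b)) X) x)
        exact ⟨⟨(θ, Θ), hn, hg⟩, rfl,
          Subtype.ext (Prod.ext h1 (by funext X x; exact (hΘ X x).1)),
          Subtype.ext (Prod.ext h2 (by funext X x; exact (hΘ X x).2))⟩ }
  obtain ⟨s, h1, h2, h3, h4⟩ := O.exists_section hC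
  refine ⟨⟨fun o => (s o).1.2, fun S X x => ?_, fun o o' X x => ?_, fun f X x => ?_,
    fun o => (s o).2.1⟩, fun o => ?_⟩
  · rw [h1]; rfl
  · rw [h2]; rfl
  · rw [h3]; rfl
  · have := (s o).2.2
    have e : (s o).1.1 = o := h4 o
    rwa [e] at this

end

variable {L}

/-- the model given by an action -/
def ActStr.model (A : L.ActStr) (X : C.GlobModel) : C.GlobModel where
  functor :=
    { obj := fun S => L.H X S.unop.shape
      map := fun o => ↾(A.A o.unop X)
      map_id := fun S => by ext x; exact A.A_one _ X x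
      map_comp := fun o o' => by ext x; exact A.A_seq _ _ X x }
  sums S b h hb hh := by
    rw [Types.isPullback_iff]
    refine ⟨?_, ?_, ?_⟩
    · ext x
      show A.A (C.ofShape _) X (A.A (C.ofShape _) X x) = A.A (C.ofShape _) X (A.A (C.ofShape _) X x)
      simp only [A.A_ofShape]
      exact (L.res_comp _ _ x).symm.trans
        ((congrArg (fun f => L.res f x) (glue_w S b h hb hh)).trans (L.res_comp _ _ x))
    · rintro x y ⟨h1, h2⟩
      exact L.glue_ext S b h hb hh x y
        ((A.A_ofShape _ X x).symm.trans (h1.trans (A.A_ofShape _ X y)))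
        ((A.A_ofShape _ X x).symm.trans (h2.trans (A.A_ofShape _ X y)))
    · intro x z hxz
      obtain ⟨y, h1, h2⟩ := L.glue_ex S b h hb hh x z
        ((A.A_ofShape _ X x).symm.trans (hxz.trans (A.A_ofShape _ X z)))
      exact ⟨y, (A.A_ofShape _ X y).trans h1, (A.A_ofShape _ X y).trans h2⟩

lemma ActStr.act_model (A : L.ActStr) (X : C.GlobModel) {S T : Shape} (o : C.arr S T)
    (x : L.H X T) : act (A.model X) o x = A.A o X x := rfl

lemma ActStr.ev_model (A : L.ActStr) (X : C.GlobModel) {S T : Shape} (f : S ⟶ T)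
    (x : L.H X T) : ev (A.model X) f x = L.res f x := A.A_ofShape f X x

lemma ActStr.fc_model (A : L.ActStr) (X : C.GlobModel) {i m : ℕ} (h : i < m) (b : Bool)
    (x : L.H X (globe m)) : fc (X := A.model X) h b x = L.res (faceMap h b) x :=
  A.A_ofShape _ X x

variable (L)

/-- the boundary family of a parallel pair -/
noncomputable def sph {X : C.GlobModel} {k : ℕ} (x y : L.H X (globe k)) (i : ℕ) (h : i < k + 1)
    (b : Bool) : L.H X (globe i) :=
  if hi : i = k then hi ▸ (cond b y x) else L.res (faceMap (by omega) b) x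

lemma sph_top {X : C.GlobModel} {k : ℕ} (x y : L.H X (globe k)) (h : k < k + 1) (b : Bool) :
    L.sph x y k h b = cond b y x := by simp [sph]

lemma sph_lt {X : C.GlobModel} {k : ℕ} (x y : L.H X (globe k)) {i : ℕ} (hi : i < k)
    (h : i < k + 1) (b : Bool) : L.sph x y i h b = L.res (faceMap hi b) x := by simp [sph, hi.ne]

lemma sph_compat {X : C.GlobModel} {k : ℕ} {x y : L.H X (globe k)}
    (hxy : ∀ i (h : i < k) b, L.res (faceMap h b) x = L.res (faceMap h b) y)
    (i j : ℕ) (h : j < i) (hi : i < k + 1) (b b' : Bool) :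
    L.res (faceMap h b) (L.sph x y i hi b') = L.sph x y j (h.trans hi) b := by
  rcases Nat.lt_succ_iff_lt_or_eq.1 hi with h' | rfl
  · rw [L.sph_lt x y h', L.sph_lt x y (h.trans h'), ← L.res_comp, faceMap_comp]
  · rw [L.sph_top, L.sph_lt x y h]
    cases b'
    · rfl
    · exact (hxy j h b).symm

lemma res_eq_sph {X : C.GlobModel} {k : ℕ} (z : L.H X (globe (k + 1))) (i : ℕ) (h : i < k + 1)
    (b : Bool) : L.res (faceMap h b) z = L.sph (L.res (σ k) z) (L.res (τ k) z) i h b := by
  rcases Nat.lt_succ_iff_lt_or_eq.1 h with h' | rfl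
  · rw [L.sph_lt _ _ h', ← L.res_comp, σ, faceMap_comp]
  · rw [L.sph_top]
    cases b <;> rfl

end LocFun

end Crest.Agent.R248
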