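import Crest.Agent.R248.Path
import Crest.Agent.R248.Expand

/-! The main double induction: relative path structures exist. -/

set_option autoImplicit false
set_option linter.unusedVariables false
open CategoryTheory CategoryTheory.Limits Opposite Crest.GeometryTopology.Coherator
universe u

namespace Crest.Agent.R248

open GlobTheory Shape

noncomputable section

variable {C : GlobTheory.{u}}

namespace Ops

variable (O : Ops C)

/-- right whiskering -/
def Rw {X : C.GlobModel} {k m : ℕ} (hm : k < m) (δ : Cl X (k + 1)) (z : Cl X m) : Cl X m :=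
  O.Wt k (O.unit (fc hm false z)) δ z

section
variable {X : C.GlobModel} {k m : ℕ} (hm : k < m) {δ : Cl X (k + 1)} {z : Cl X m}
  (h2 : ∂₀ δ = fc hm true z)
include h2

lemma fc_Rw_hi {i : ℕ} (hk : k < i) (h : i < m) (b : Bool) :
    fc h b (O.Rw hm δ z) = O.Rw hk δ (fc h b z) := by
  rw [Rw, O.fc_Wt_hi hm (O.tgt_unit _) h2 hk, Rw, fc_fc]

lemma fc_Rw_false : fc hm false (O.Rw hm δ z) = fc hm false z := by
  rw [Rw, O.fc_Wt_false hm (O.tgt_unit _) h2, O.src_unit]

lemma fc_Rw_true : fc hm true (O.Rw hm δ z) = ∂₁ δ := O.fc_Wt_true hm (O.tgt_unit _) h2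

lemma fc_Rw_lo {i : ℕ} (hk : i < k) (h : i < m) (b : Bool) :
    fc h b (O.Rw hm δ z) = fc h b z := by
  rw [← fc_fc hk hm b false, O.fc_Rw_false hm h2, fc_fc]

lemma ap_Rw {Y : C.GlobModel} (g : X ⟶ Y) : ap g (O.Rw hm δ z) = O.Rw hm (ap g δ) (ap g z) := by
  rw [Rw, O.ap_Wt hm (O.tgt_unit _) h2, O.ap_unit, ap_fc, Rw]

end

lemma rel_inv_inv (hC : C.IsCoheratorTheory) {X : C.GlobModel} {k : ℕ} (p : Cl X (k + 1)) :
    Rel p (O.inv (O.inv p)) := by
  have := (con_free hC (globe (k + 1)) (k + 1) (Nat.le_succ _) (univ C _)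
    (O.inv (O.inv (univ C _))) (par_of_succ (by simp) (by simp))).map (cls p)
  simpa using this

end Ops

theorem con_W (hC : C.IsCoheratorTheory) {O : Ops C} {n : ℕ} {K : KStr C n} {k : ℕ}
    (Q : QStr O K (k + 1)) {S : Shape} {W : C.GlobModel} {i : Fr C S ⟶ W}
    {p : Var S k → Cl W (k + 1)} (hW : IsWh k i (fun x => ev _ x (univ C S)) p)
    {M : ℕ} (hS : S.dim ≤ M) (hkM : k ≤ M) (hM : M ≤ n) : Con W M := by
  have hk1 := Nat.lt_add_one k
  set ξ : V W S := ap i (univ C S) with hξ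
  have hp : ∀ x, ∂₀ (p x) = ev W x ξ := fun x => by rw [hW.src_p, ap_ev]
  have hp' : ∀ j (h : k < j) (v : Var S j), ∂₀ (p (faceMap h true ≫ v)) = fc h true (ev W v ξ) :=
    fun j h v => by rw [hp, fc_ev]
  let δ : Ex k W S :=
    { val := fun j v => if h : k < j then O.Rw h (p (faceMap h true ≫ v)) (ev W v ξ) else ev W v ξ
      q := fun x => O.inv (p x)
      tgt_q := fun x => by rw [dif_neg (lt_irrefl k), O.tgt_inv, hp]
      face := by
        intro j j' h b v hb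
        by_cases hj : k < j
        · rw [dif_pos hj]
          rcases lt_trichotomy k j' with h' | rfl | h'
          · rw [dif_pos h', O.fc_Rw_hi hj (hp' j hj v) h', faceMap_comp'_assoc, fc_ev]
          · rw [hb rfl, dif_neg (lt_irrefl k), O.fc_Rw_false hj (hp' j hj v), fc_ev]
          · rw [dif_neg (by omega), O.fc_Rw_lo hj (hp' j hj v) h', fc_ev]
        · rw [dif_neg hj, dif_neg (by omega), fc_ev]
      face_k := fun j h v => by rw [dif_pos h, O.fc_Rw_true h (hp' j h v), O.src_inv] }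
  obtain ⟨G, e, hG, hR⟩ := exists_expansion (C := C) k S
  obtain ⟨β, hβ⟩ := hR W δ
  have hβv : ∀ j v, ap β (e.val j v) = δ.val j v := fun j v =>
    congrArg (fun a : Ex k W S => a.val j v) hβ
  have hβq : ∀ x, ap β (e.q x) = O.inv (p x) := fun x => congrArg (fun a : Ex k W S => a.q x) hβ
  obtain ⟨α0, hα0⟩ := V_exists (Fr C G) S
    (fun j v => if h : k < j then O.Rw h (e.q (faceMap h true ≫ v)) (e.val j v) else e.val j v) (by
      intro j j' h b v
      by_cases hj : k < j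
      · rw [dif_pos hj]
        have c := (e.face_k j hj v).symm
        rcases lt_trichotomy k j' with h' | rfl | h'
        · rw [dif_pos h', O.fc_Rw_hi hj c h', faceMap_comp'_assoc,
            e.face _ _ _ _ _ (fun h => by omega)]
        · rw [dif_neg (lt_irrefl k)]
          cases b
          · rw [O.fc_Rw_false hj c, e.face _ _ _ _ _ (fun _ => rfl)]
          · rw [O.fc_Rw_true hj c, e.tgt_q]
        · rw [dif_neg (by omega), O.fc_Rw_lo hj c h', e.face _ _ _ _ _ (fun h => by omega)]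
      · rw [dif_neg hj, dif_neg (by omega), e.face _ _ _ _ _ (fun h => by omega)])
  obtain ⟨α, hα1, hα2⟩ := hW.ex _ (cls α0) (fun x => O.inv (e.q x)) (fun x => by
    rw [ap_ev, ap_cls_univ, hα0, dif_neg (lt_irrefl k), O.src_inv, e.tgt_q])
  have hαξ : ap α ξ = α0 := by rw [hξ, ← ap_comp, hα1, ap_cls_univ]
  have hφ_hi : ∀ j (h : k < j) (v : Var S j), ap (α ≫ β) (ev W v ξ) =
      O.Rw h (O.inv (p (faceMap h true ≫ v))) (O.Rw h (p (faceMap h true ≫ v)) (ev W v ξ)) := by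
    intro j h v
    rw [ap_comp, ap_ev α, hαξ, hα0, dif_pos h, O.ap_Rw h (e.face_k j h v).symm, hβq, hβv]
    simp only [δ, dif_pos h]
  have hφ_lo : ∀ j (h : ¬ k < j) (v : Var S j), ap (α ≫ β) (ev W v ξ) = ev W v ξ := by
    intro j h v
    rw [ap_comp, ap_ev α, hαξ, hα0, dif_neg h, hβv]
    simp only [δ, dif_neg h]
  have hφ_p : ∀ x, ap (α ≫ β) (p x) = O.inv (O.inv (p x)) := fun x => by
    rw [ap_comp, hα2, O.ap_inv, hβq]
  have c2 : ∀ {m} {hm : k < m} {X : C.GlobModel} (t : Tri X k m hm),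
      ∂₀ (O.inv t.δ) = fc hm true (O.Rw hm t.δ t.z) := fun t => by
    rw [O.fc_Rw_true _ t.h2, O.src_inv]
  obtain ⟨H, hH⟩ := O.tri_cyl hC k (fun m hm X t => t.z)
    (fun m hm X t => O.Rw hm (O.inv t.δ) (O.Rw hm t.δ t.z)) (fun m hm X Y g t => rfl)
    (fun m hm X Y g t => by
      simp only
      rw [O.ap_Rw hm (c2 t), O.ap_Rw hm t.h2, O.ap_inv]; rfl)
    (fun _ _ _ _ _ _ _ _ => rfl)
    (fun m hm X t i hj h b => by
      rw [O.fc_Rw_hi hm (c2 t) hj, O.fc_Rw_hi hm t.h2 hj]; rfl)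
    (fun m hm X t b => by
      cases b
      · rw [O.fc_Rw_false hm (c2 t), O.fc_Rw_false hm t.h2]
      · rw [O.fc_Rw_true hm (c2 t), O.tgt_inv, t.h2])
  let tv : ∀ j (h : k < j) (v : Var S j), Tri W k j h := fun j h v =>
    ⟨O.unit (fc h false (ev W v ξ)), ev W v ξ, p (faceMap h true ≫ v), O.tgt_unit _, hp' j h v⟩
  have tv_face : ∀ j (h : k < j) (v : Var S j) j' (h' : k < j') (hj : j' < j) b,
      (tv j h v).face h' hj b = tv j' h' (faceMap hj b ≫ v) := by
    intro j h v j' h' hj b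
    ext
    · simp only [tv, Tri.face_γ, ← fc_ev, fc_fc]
    · simp only [tv, Tri.face_z, fc_ev]
    · simp only [tv, Tri.face_δ, faceMap_comp'_assoc]
  let κ : HP O (k + 1) n (n + 1) le_rfl W S :=
    { bot := tr n ξ
      fil := fun j hk hj v => H j hk W (tv j hk v)
      src_fil := fun j hk hj v => by
        rw [(hH j hk W _).1]
        simp only [tv_face]
        rfl }
  have hκ0 : ap (Q.π0 W) (S := S) κ = ap (K.η W) ξ := rfl
  have hκ1 : ap (Q.π1 W) (S := S) κ = ap (K.η W) (ap (α ≫ β) ξ) := by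
    refine TM.ext' fun j hj v => ?_
    show κ.top.val j hj v = ev W v (ap (α ≫ β) ξ)
    rw [← ap_ev]
    by_cases h : k < j
    · rw [κ.top_hi h, hφ_hi j h]
      exact (hH j h W _).2
    · rw [κ.top_lo (by omega), hφ_lo j h]
      rfl
  have key : ∀ x, ∃ P : Cl (Q.M W) (k + 1), ∂₀ P = ev (Q.M W) x κ ∧
      ap (Q.π0 W) P = ap (K.η W) (p x) ∧ ap (Q.π1 W) P = ap (K.η W) (ap (α ≫ β) (p x)) := by
    intro x
    set c : Cl (Q.M W) k := ev (Q.M W) x κ with hc
    have hc0 : ap (Q.π0 W) c = ap (K.η W) (∂₀ (p x)) := by rw [hc, ap_ev, hκ0, hp, ap_ev]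
    have hc1 : ap (Q.π1 W) c = ap (K.η W) (ap (α ≫ β) (∂₀ (p x))) := by
      rw [hc, ap_ev, hκ1, hp, ap_ev, ap_ev]
    obtain ⟨d, hd1, hd2⟩ := (Q.trivFib W).lift_par c (ap (K.η W) (∂₁ (p x)))
      (by rw [hc0]; exact ((par_src_tgt _).map _).symm)
    obtain ⟨ω, hω1, hω2⟩ := O.rel_inv_inv hC (p x)
    obtain ⟨P, hP1, hP2, hP3⟩ := Q.lift _ (isSph_sphOf hd1.symm) (ap (K.η W) (p x))
      (fc_eq_sphOf _ (by rw [← ap_fc, hc0]) (by rw [← ap_fc, hd2]))
      (fun _ _ => ω) (fun _ hm => by rw [hω1, K.η_val, O.Tr_le le_rfl])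
    have e0 : ∂₀ P = c := (hP1 _ _ _).trans (sphOf_top _ _ _ _)
    have e1 : ∂₁ P = d := (hP1 _ _ _).trans (sphOf_top _ _ _ _)
    refine ⟨P, e0, hP2, K.cell_ext (par_of_succ ?_ ?_) (fun hm => ?_)⟩
    · rw [← ap_fc, e0, hc1, ← ap_fc, ← ap_fc]
    · rw [← ap_fc, e1]
      refine K.cell_ext ((hd1.map _).trans ?_) (fun hm => ?_)
      · rw [hc1, ap_fc, ap_fc]
        exact par_src_tgt _
      · rw [Q.π1_val_lo hk1, hd2, ← ap_fc, K.η_val, K.η_val, hφ_p, O.tgt_inv, O.src_inv]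
    · rw [Q.π1_val_hi le_rfl, hP3, hω2, K.η_val, hφ_p]
  choose P h1 h2 h3 using key
  obtain ⟨Kh, hK1, hK2⟩ := hW.ex (Q.M W) (cls (X := Q.M W) κ) P (fun x => by
    rw [h1, ap_ev, ap_cls_univ])
  have hK3 : ap Kh ξ = κ := by rw [hξ, ← ap_comp, hK1, ap_cls_univ]
  have e0 : Kh ≫ Q.π0 W = K.η W := by
    refine hW.ext _ _ _ (fr_hom_ext ?_) (fun x => ?_)
    · rw [ap_comp, ap_comp, ap_comp, ← hξ, hK3, hκ0]
    · rw [ap_comp, hK2, h2]
  have e1 : Kh ≫ Q.π1 W = (α ≫ β) ≫ K.η W := by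
    refine hW.ext _ _ _ (fr_hom_ext ?_) (fun x => ?_)
    · rw [ap_comp, ap_comp, ap_comp, ← hξ, hK3, hκ1]; rfl
    · rw [ap_comp, hK2, h3]; rfl
  intro t t' ht
  have r1 := (con_free hC G M (by omega) _ _ (ht.map α)).map β
  have := (Q.rel_iff hC hM (ht.map Kh)).2 (by
    rw [← ap_comp, ← ap_comp, e1, ap_comp, ap_comp, K.η_val, ap_comp, K.η_val]
    exact r1)
  rwa [← ap_comp, ← ap_comp, e0, K.η_val, K.η_val] at this

namespace HP

variable {O : Ops C} {k n j : ℕ} {hj : j + 1 ≤ n + 1} {X Y : C.GlobModel} {S : Shape}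

/-- forget the top fillers -/
def trunc (x : HP O k n (j + 1) hj X S) : HP O k n j (Nat.le_of_succ_le hj) X S where
  bot := x.bot
  fil i hk hi v := x.fil i hk (Nat.lt_succ_of_lt hi) v
  src_fil i hk hi v := x.src_fil i hk _ v

lemma trunc_ext (hk : k ≤ j) {x y : HP O k n (j + 1) hj X S} (h1 : x.trunc = y.trunc)
    (h2 : ∀ v, x.fil j hk (Nat.lt_add_one j) v = y.fil j hk (Nat.lt_add_one j) v) : x = y := by
  refine ext' (congrArg (fun a : HP O k n j (Nat.le_of_succ_le hj) X S => a.bot) h1)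
    (fun i hk' hi v => ?_)
  rcases Nat.lt_succ_iff_lt_or_eq.1 hi with h | rfl
  · exact congrArg (fun a : HP O k n j (Nat.le_of_succ_le hj) X S => a.fil i hk' h v) h1
  · exact h2 v

lemma extend (hk : k ≤ j) (u : HP O k n j (Nat.le_of_succ_le hj) X S) (w : Var S j → Cl X (j + 1))
    (hw : ∀ v, ∂₀ (w v) = O.Tr k j (u.side le_rfl v) (u.bot.val j (Nat.le_of_succ_le_succ hj) v)) :
    ∃ x : HP O k n (j + 1) hj X S, x.trunc = u ∧ ∀ v, x.fil j hk (Nat.lt_add_one j) v = w v := by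
  let f : ∀ i, k ≤ i → i < j + 1 → Var S i → Cl X (i + 1) := fun i hk' hi v =>
    if h : i = j then (by subst h; exact w v) else u.fil i hk' (by omega) v
  have f1 : ∀ hk' hi v, f j hk' hi v = w v := fun _ _ v => by simp [f]
  have f2 : ∀ i hk' hi (h : i < j) v, f i hk' hi v = u.fil i hk' h v := fun i _ _ h v =>
    dif_neg h.ne
  refine ⟨⟨u.bot, f, fun i hk' hi v => ?_⟩, ext' rfl (fun i hk' h v => f2 i hk' _ h v),
    f1 hk (Nat.lt_add_one j)⟩
  rcases Nat.lt_succ_iff_lt_or_eq.1 hi with h | rfl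
  · rw [f2 _ _ _ h, u.src_fil]
    congr 1
    funext a ha ha' b
    exact (f2 _ _ _ _ _).symm
  · rw [f1 hk' hi, hw]
    congr 1
    funext a ha ha' b
    exact (f2 _ _ _ _ _).symm

end HP

/-- representability of partial homotopies -/
structure IsRep {O : Ops C} {k n j : ℕ} {hj : j ≤ n + 1} {Z : C.GlobModel} {S : Shape}
    (u : HP O k n j hj Z S) : Prop where
  ex : ∀ (X : C.GlobModel) (ξ : HP O k n j hj X S), ∃ g : Z ⟶ X, u.push g = ξ
  ext : ∀ (X : C.GlobModel) (g g' : Z ⟶ X), u.push g = u.push g' → g = g'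

lemma rep_base (O : Ops C) {k n j : ℕ} (hj : j ≤ n + 1) (hjk : j ≤ k) {S : Shape} (hS : S.dim ≤ n) :
    ∃ u : HP O k n j hj (Fr C S) S, IsRep u ∧ u.bot = tr n (univ C S) := by
  refine ⟨⟨tr n (univ C S), fun i hk hi => absurd hi (by omega),
    fun i hk hi => absurd hi (by omega)⟩, ⟨fun X ξ => ?_, fun X g g' h => ?_⟩, rfl⟩
  · obtain ⟨x, hx⟩ := tr_surj hS ξ.bot
    refine ⟨cls x, HP.ext' ?_ (fun i hk hi => absurd hi (by omega))⟩
    rw [HP.push_bot, push_tr, ap_cls_univ, hx]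
  · apply fr_hom_ext
    apply tr_inj hS
    rw [← push_tr, ← push_tr]
    exact congrArg HP.bot h

lemma rep_step {O : Ops C} {k n j : ℕ} (hj : j + 1 ≤ n + 1) (hk : k ≤ j) {Z : C.GlobModel}
    {S : Shape} {u : HP O k n j (Nat.le_of_succ_le hj) Z S} (hu : IsRep u) :
    ∃ (Y : C.GlobModel) (i : Z ⟶ Y) (p : Var S j → Cl Y (j + 1)) (u' : HP O k n (j + 1) hj Y S),
      IsWh j i (fun v => O.Tr k j (u.side le_rfl v) (u.bot.val j (Nat.le_of_succ_le_succ hj) v)) p ∧
      IsRep u' := by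
  obtain ⟨Y, i, p, hW⟩ := exists_wh j Z
    (fun v => O.Tr k j (u.side le_rfl v) (u.bot.val j (Nat.le_of_succ_le_succ hj) v))
  obtain ⟨u', h1, h2⟩ := HP.extend (hj := hj) hk (u.push i) p
    (fun v => (hW.src_p v).trans (u.ap_Tr_side i _ _ v))
  refine ⟨Y, i, p, u', hW, fun X ξ => ?_, fun X g g' h => ?_⟩
  · obtain ⟨g, hg⟩ := hu.ex X ξ.trunc
    obtain ⟨h, h3, h4⟩ := hW.ex X g (fun v => ξ.fil j hk (Nat.lt_add_one j) v) (fun v => by
      rw [u.ap_Tr_side, ξ.src_fil]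
      exact (congrArg (fun a : HP O k n j (Nat.le_of_succ_le hj) X S =>
        O.Tr k j (a.side le_rfl v) (a.bot.val j (Nat.le_of_succ_le_succ hj) v)) hg).symm)
    refine ⟨h, HP.trunc_ext hk ?_ (fun v => ?_)⟩
    · rw [← hg, ← h3, HP.push_comp, ← h1]; rfl
    · rw [HP.push_fil, h2, h4]
  · refine hW.ext X g g' (hu.ext X _ _ ?_) (fun v => ?_)
    · rw [HP.push_comp, HP.push_comp, ← h1]
      exact congrArg HP.trunc h
    · rw [← h2]
      exact congrArg (fun a : HP O k n (j + 1) hj X S => a.fil j hk (Nat.lt_add_one j) v) h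

theorem exists_rep (hC : C.IsCoheratorTheory) {O : Ops C} {n : ℕ} {K : KStr C n} {k : ℕ}
    (ih : ∀ j, k < j → j ≤ n + 1 → Nonempty (QStr O K j)) {S : Shape} {M : ℕ} (hS : S.dim ≤ M)
    (hM : M ≤ n) : ∃ (Z : C.GlobModel) (u : HP O k n (n + 1) le_rfl Z S),
      IsRep u ∧ (k ≤ M → Con Z M) := by
  by_cases hkn : n + 1 ≤ k
  · obtain ⟨u, hu, -⟩ := rep_base O le_rfl hkn (hS.trans hM)
    exact ⟨_, u, hu, fun h => by omega⟩
  have key : ∀ j (hj : j + 1 ≤ n + 1), k ≤ j → ∃ (Z : C.GlobModel) (u : HP O k n (j + 1) hj Z S),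
      IsRep u ∧ Cof Z ∧ (k ≤ M → Con Z M) := by
    intro j hj hk
    induction j, hk using Nat.le_induction with
    | base =>
      obtain ⟨u, hu, hub⟩ := rep_base O (Nat.le_of_succ_le hj) le_rfl (hS.trans hM)
      obtain ⟨Y, i, p, u', hW, hu'⟩ := rep_step hj le_rfl hu
      obtain ⟨Q⟩ := ih (k + 1) (Nat.lt_add_one k) hj
      refine ⟨Y, u', hu', hW.cof (cof_free S), fun hkM => con_W hC Q (i := i) (p := p) ?_ hS hkM hM⟩
      convert hW using 2 with v
      rw [O.Tr_le le_rfl, hub]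
      rfl
    | succ j hk ihj =>
      obtain ⟨Z, u, hu, hZ, hcon⟩ := ihj (Nat.le_of_succ_le hj)
      obtain ⟨Y, i, p, u', hW, hu'⟩ := rep_step hj (Nat.le_succ_of_le hk) hu
      obtain ⟨Q⟩ := ih (j + 1) (by omega) (by omega)
      exact ⟨Y, u', hu', hW.cof hZ, fun hkM => Q.wh_con hC hW hZ hM (hcon hkM)⟩
  obtain ⟨Z, u, hu, -, hcon⟩ := key n le_rfl (by omega)
  exact ⟨Z, u, hu, hcon⟩

lemma sph_map {O : Ops C} {k n : ℕ} {X : C.GlobModel}
    (φ : ∀ S, HP O k n (n + 1) le_rfl X S → TM n X S)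
    (hφ : ∀ S T (f : S ⟶ T) x, φ S (HP.res f x) = TM.res f (φ T x)) {m : ℕ}
    (x y : HP O k n (n + 1) le_rfl X (globe m)) (i : ℕ) (h : i < m + 1) (b : Bool) :
    φ _ ((LQ O k n).sph x y i h b) = (LK C n).sph (φ _ x) (φ _ y) i h b := by
  rcases Nat.lt_succ_iff_lt_or_eq.1 h with h' | rfl
  · rw [(LQ O k n).sph_lt x y h', (LK C n).sph_lt _ _ h']
    exact hφ _ _ _ _
  · rw [(LQ O k n).sph_top, (LK C n).sph_top]
    cases b <;> rfl

lemma TM.par_val {n : ℕ} {X : C.GlobModel} {m : ℕ} (hm : m ≤ n) {x y : TM n X (globe m)}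
    (h : ∀ i (h : i < m) b, TM.res (faceMap h b) x = TM.res (faceMap h b) y) :
    Par (x.val m hm (𝟙 _)) (y.val m hm (𝟙 _)) := by
  intro j hj b
  have := congrArg (fun a : TM n X (globe j) => a.val j (hj.le.trans hm) (𝟙 _)) (h j hj b)
  rw [x.face, y.face]
  simpa using this

theorem qstr_step (hC : C.IsCoheratorTheory) (O : Ops C) {n : ℕ} (K : KStr C n) (k : ℕ)
    (ih : ∀ j, k < j → j ≤ n + 1 → Nonempty (QStr O K j)) : Nonempty (QStr O K k) := by
  obtain ⟨Q, hQ⟩ := (LQ O k n).exists_act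
    (fun {S T} o Φ => ∀ (X : C.GlobModel) (ξ : HP O k n (n + 1) le_rfl X T),
      HP.bot (Φ X ξ) = K.K.A o X ξ.bot ∧ HP.top (Φ X ξ) = K.K.A o X ξ.top)
    (by
      intro R S T o o' Φ Ψ h1 h2 X ξ
      simp only
      rw [(h1 _ _).1, (h1 _ _).2, (h2 _ _).1, (h2 _ _).2, K.K.A_seq, K.K.A_seq]
      exact ⟨rfl, rfl⟩)
    (fun f X ξ => ⟨(K.K.A_ofShape f X ξ.bot).symm,
      (HP.res_top f ξ).trans (K.K.A_ofShape f X ξ.top).symm⟩) hC
    (by
      intro S b h hb hh T o Φ h1 h2 X ξ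
      constructor
      · apply TM.glue_ext
        · exact (h1 X ξ).1.trans ((K.K.A_seq _ _ _ _).trans (K.K.A_ofShape _ _ _))
        · exact (h2 X ξ).1.trans ((K.K.A_seq _ _ _ _).trans (K.K.A_ofShape _ _ _))
      · apply TM.glue_ext
        · exact (h1 X ξ).2.trans ((K.K.A_seq _ _ _ _).trans (K.K.A_ofShape _ _ _))
        · exact (h2 X ξ).2.trans ((K.K.A_seq _ _ _ _).trans (K.K.A_ofShape _ _ _)))
    (by
      intro m S hS θ F G hF hG gF gG hFG
      have hres : ∀ (X : C.GlobModel) (ζ : TM n X S) i (h : i < m + 1) b,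
          TM.res (faceMap h b) (K.K.A θ X ζ) = (LK C n).sph
            (K.K.A (C.seq (C.ofShape (σ m)) θ) X ζ) (K.K.A (C.seq (C.ofShape (τ m)) θ) X ζ) i h b := by
        intro X ζ i h b
        rw [K.K.A_seq, K.K.A_seq, K.K.A_ofShape, K.K.A_ofShape]
        exact (LK C n).res_eq_sph _ i h b
      have hbot : ∀ (X : C.GlobModel) (ξ : HP O k n (n + 1) le_rfl X S) i (h : i < m + 1) b,
          TM.res (faceMap h b) (K.K.A θ X ξ.bot) =
            HP.bot ((LQ O k n).sph (F X ξ) (G X ξ) i h b) := by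
        intro X ξ i h b
        rw [hres, ← (gF X ξ).1, ← (gG X ξ).1]
        exact (sph_map (fun _ x => x.bot) (fun _ _ _ _ => rfl) _ _ i h b).symm
      have htop : ∀ (X : C.GlobModel) (ξ : HP O k n (n + 1) le_rfl X S) i (h : i < m + 1) b,
          TM.res (faceMap h b) (K.K.A θ X ξ.top) =
            HP.top ((LQ O k n).sph (F X ξ) (G X ξ) i h b) := by
        intro X ξ i h b
        rw [hres, ← (gF X ξ).2, ← (gG X ξ).2]
        exact (sph_map (fun _ x => x.top) (fun _ _ _ _ => rfl) _ _ i h b).symm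
      by_cases hm : m + 1 ≤ n
      · obtain ⟨Z, u, hu, hcon⟩ := exists_rep hC ih hS hm
        have hs := (LQ O k n).sph_compat (fun i h b => hFG i h b Z u)
        obtain ⟨y0, y1, y2, y3⟩ := HP.globe_ex (hr := le_rfl) _ hs _ (hbot Z u)
          (fun _ _ => O.unit _) (fun _ _ => O.src_unit _)
        have hw : ∀ (hk : k ≤ m + 1) (hm' : m + 1 < n + 1),
            Rel (O.Tr k (m + 1) (HP.sphSide (hr := le_rfl) hm'.le ((LQ O k n).sph (F Z u) (G Z u)))
              (TM.val (K.K.A θ Z u.bot) (m + 1) hm (𝟙 _)))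
              (TM.val (K.K.A θ Z u.top) (m + 1) hm (𝟙 _)) := by
          intro hk hm'
          apply hcon hk
          have := TM.par_val hm (x := y0.top) (y := K.K.A θ Z u.top) (fun i h b => by
            rw [htop, ← y1]; rfl)
          rwa [y0.top_hi hk, y3, O.tgt_unit] at this
        choose w hw1 hw2 using hw
        obtain ⟨y, z1, z2, z3⟩ := HP.globe_ex (hr := le_rfl) _ hs _ (hbot Z u) w hw1
        have z4 : y.top = K.K.A θ Z u.top := by
          refine TM.globe_ext (fun i h b => by rw [htop, ← z1]; rfl) (fun hm' => ?_)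
          by_cases hk : k ≤ m + 1
          · rw [y.top_hi hk, z3, hw2]
          · have : u.top = u.bot := TM.ext' fun i hi v =>
              u.top_lo (by have := var_le_dim S i v; omega) hi v
            rw [y.top_lo (by omega), z2, this]
        choose c hc using hu.ex
        refine ⟨fun X ξ => y.push (c X ξ), fun X Y g ξ => ?_, fun X ξ => ⟨?_, ?_⟩,
          fun X ξ => ⟨?_, ?_⟩⟩
        · have : c Y (HP.push g ξ) = c X ξ ≫ g := hu.ext _ _ _ (by rw [hc, HP.push_comp, hc])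
          exact (congrArg (fun a => HP.push a y) this).symm
        · refine (congrArg (TM.push (c X ξ)) z2).trans ((K.K.A_nat θ _ _ _ _).trans ?_)
          exact congrArg (fun a : HP O k n (n + 1) le_rfl X S => K.K.A θ X a.bot) (hc X ξ)
        · refine (HP.push_top _ _).trans
            ((congrArg (TM.push (c X ξ)) z4).trans ((K.K.A_nat θ _ _ _ _).trans ?_))
          refine congrArg (K.K.A θ X) ?_
          exact (HP.push_top _ _).symm.trans (congrArg HP.top (hc X ξ))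
        · refine (congrArg (HP.push (c X ξ)) ((z1 m _ false).trans
            ((LQ O k n).sph_top _ _ _ _))).trans ((hF _ _ _ _).trans ?_)
          exact congrArg (F X) (hc X ξ)
        · refine (congrArg (HP.push (c X ξ)) ((z1 m _ true).trans
            ((LQ O k n).sph_top _ _ _ _))).trans ((hG _ _ _ _).trans ?_)
          exact congrArg (G X) (hc X ξ)
      · choose Θ hΘ1 hΘ2 hΘ3 using fun (X : C.GlobModel) (ξ : HP O k n (n + 1) le_rfl X S) =>
          HP.globe_ex (hr := le_rfl) _ ((LQ O k n).sph_compat (fun i h b => hFG i h b X ξ)) _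
            (hbot X ξ) (fun _ h => absurd h (by omega)) (fun _ h => absurd h (by omega))
        have hσ : ∀ X ξ, HP.res (σ m) (Θ X ξ) = F X ξ := fun X ξ =>
          (hΘ1 X ξ m _ false).trans ((LQ O k n).sph_top _ _ _ _)
        have hτ : ∀ X ξ, HP.res (τ m) (Θ X ξ) = G X ξ := fun X ξ =>
          (hΘ1 X ξ m _ true).trans ((LQ O k n).sph_top _ _ _ _)
        refine ⟨Θ, fun X Y g ξ => ?_, fun X ξ => ⟨hΘ2 X ξ, ?_⟩, fun X ξ => ⟨hσ X ξ, hτ X ξ⟩⟩
        · refine HP.globe_ext (fun i h b => ?_) (fun h => absurd h hm) (fun _ h => absurd h (by omega))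
          refine ((LQ O k n).res_eq_sph _ i h b).trans (Eq.trans ?_ (hΘ1 Y _ i h b).symm)
          refine congrArg₂ (fun a c => (LQ O k n).sph a c i h b) ?_ ?_
          · exact (congrArg (HP.push g) (hσ X ξ)).trans (hF _ _ _ _)
          · exact (congrArg (HP.push g) (hτ X ξ)).trans (hG _ _ _ _)
        · exact TM.globe_ext (fun i h b => by rw [htop, ← hΘ1]; rfl) (fun h => absurd h hm))
  exact ⟨⟨Q, fun o X ξ => (hQ o X ξ).1, fun o X ξ => (hQ o X ξ).2⟩⟩

theorem exists_qstr (hC : C.IsCoheratorTheory) (O : Ops C) {n : ℕ} (K : KStr C n) (k : ℕ) :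
    Nonempty (QStr O K k) := by
  have : ∀ d k, n + 1 - k ≤ d → Nonempty (QStr O K k) := by
    intro d
    induction d with
    | zero => exact fun k hk => qstr_step hC O K k (fun j h1 h2 => by omega)
    | succ d ih => exact fun k hk => qstr_step hC O K k (fun j h1 h2 => ih j (by omega))
  exact this _ k le_rfl

/-- The pushout property in elementary form. -/
theorem wh_rel_all (hC : C.IsCoheratorTheory) {k : ℕ} {X Y : C.GlobModel} {i : X ⟶ Y} {I : Type}
    {a : I → Cl X k} {p : I → Cl Y (k + 1)} (hW : IsWh k i a p) (hX : Cof X) :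
    ∃ r : Y ⟶ X, i ≫ r = 𝟙 X ∧ ∀ (m : ℕ) (t : Cl Y m),
      (∀ j (h : j < m) b, ∃ x, fc h b t = ap i x) → Rel (ap i (ap r t)) t := by
  obtain ⟨O⟩ := exists_ops hC
  obtain ⟨r, hr1, hr2⟩ := hW.ex X (𝟙 X) (fun t => O.unit (a t)) (fun t => O.src_unit _)
  refine ⟨r, hr1, fun m t ht => ?_⟩
  obtain ⟨K, hK⟩ := exists_K hC m
  obtain ⟨Q⟩ := exists_qstr hC O ⟨K, hK⟩ k
  exact Q.wh_rel hC hW hX r hr1 hr2 le_rfl t ht

end

end Crest.Agent.R248
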