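import Crest.Agent.R248.Whisker

/-! Units, inverses and whiskering operations of a coherator. -/

set_option autoImplicit false
open CategoryTheory CategoryTheory.Limits Opposite Crest.GeometryTopology.Coherator
universe u

namespace Crest.Agent.R248

open GlobTheory Shape

variable {C : GlobTheory.{u}}

lemma Rel.symm (hC : C.IsCoheratorTheory) {X : C.GlobModel} {m : ℕ} {x y : Cl X m}
    (h : Rel x y) : Rel y x := by
  obtain ⟨w, rfl, rfl⟩ := h
  have := (con_free hC (globe (m + 1)) m le_rfl _ _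
    (par_src_tgt (univ C (globe (m + 1)))).symm).map (cls w)
  simpa using this

lemma Rel.refl (hC : C.IsCoheratorTheory) {X : C.GlobModel} {m : ℕ} (x : Cl X m) : Rel x x := by
  have := (con_free hC (globe m) m (Nat.le_succ m) _ _ (Par.refl (univ C (globe m)))).map (cls x)
  simpa using this

lemma Rel.trans (hC : C.IsCoheratorTheory) {X : C.GlobModel} {m : ℕ} {x y z : Cl X m}
    (h : Rel x y) (h' : Rel y z) : Rel x z := by
  obtain ⟨w, rfl, rfl⟩ := h
  obtain ⟨w', hw', rfl⟩ := h'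
  have hm := Nat.lt_add_one m
  obtain ⟨ξ, h1, h2⟩ := g_exists (S := globe (m + 1)) hm hm w w'
    ((congrArg (fc hm true) (apx_globe w)).trans hw'.symm)
  let G := (globe (m + 1)).glue m (m + 1) hm hm
  let a : Cl (Fr C G) (m + 1) := gL (univ C G)
  let c : Cl (Fr C G) (m + 1) := gR (univ C G)
  have hac : ∂₁ a = ∂₀ c :=
    (congrArg (fc hm true) (apx_globe a)).symm.trans (fc_apx_gL (univ C G))
  have hp : Par (∂₀ a) (∂₁ c) := (par_src_tgt a).trans (hac ▸ par_src_tgt c)
  have := (con_free hC G m (by simp [G, dim_glue, dim_globe]) _ _ hp).map (cls ξ)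
  have ha : ap (cls ξ) a = w := (ap_gL _ _).trans ((congrArg gL (ap_cls_univ ξ)).trans h1)
  have hc : ap (cls ξ) c = w' := (ap_gR _ _).trans ((congrArg gR (ap_cls_univ ξ)).trans h2)
  rwa [ap_fc, ap_fc, ha, hc] at this

/-- composable triples for whiskering at level `j` -/
@[ext]
structure Tri (X : C.GlobModel) (j m : ℕ) (hm : j < m) where
  γ : Cl X (j + 1)
  z : Cl X m
  δ : Cl X (j + 1)
  h1 : ∂₁ γ = fc hm false z
  h2 : ∂₀ δ = fc hm true z

namespace Tri

variable {X Y : C.GlobModel} {j m : ℕ} {hm : j < m}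

/-- image of a triple -/
def map (g : X ⟶ Y) (t : Tri X j m hm) : Tri Y j m hm :=
  ⟨ap g t.γ, ap g t.z, ap g t.δ, by rw [← ap_fc, t.h1, ap_fc], by rw [← ap_fc, t.h2, ap_fc]⟩

/-- face of a triple -/
noncomputable def face (t : Tri X j m hm) {i : ℕ} (hj : j < i) (h : i < m) (b : Bool) :
    Tri X j i hj :=
  ⟨t.γ, fc h b t.z, t.δ, by rw [fc_fc, t.h1], by rw [fc_fc, t.h2]⟩

@[simp] lemma map_γ (g : X ⟶ Y) (t : Tri X j m hm) : (t.map g).γ = ap g t.γ := rfl
@[simp] lemma map_z (g : X ⟶ Y) (t : Tri X j m hm) : (t.map g).z = ap g t.z := rfl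
@[simp] lemma map_δ (g : X ⟶ Y) (t : Tri X j m hm) : (t.map g).δ = ap g t.δ := rfl
@[simp] lemma face_γ (t : Tri X j m hm) {i : ℕ} (hj : j < i) (h : i < m) (b : Bool) :
    (t.face hj h b).γ = t.γ := rfl
@[simp] lemma face_z (t : Tri X j m hm) {i : ℕ} (hj : j < i) (h : i < m) (b : Bool) :
    (t.face hj h b).z = fc h b t.z := rfl
@[simp] lemma face_δ (t : Tri X j m hm) {i : ℕ} (hj : j < i) (h : i < m) (b : Bool) :
    (t.face hj h b).δ = t.δ := rfl

@[simp] lemma face_face (t : Tri X j m hm) {i i' : ℕ} (hj : j < i) (h : i < m) (b : Bool)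
    (hj' : j < i') (h' : i' < i) (b' : Bool) :
    (t.face hj h b).face hj' h' b' = t.face hj' (h'.trans h) b' := by
  ext <;> simp

lemma map_face (g : X ⟶ Y) (t : Tri X j m hm) {i : ℕ} (hj : j < i) (h : i < m) (b : Bool) :
    (t.map g).face hj h b = (t.face hj h b).map g := by
  ext <;> simp

end Tri

/-- the shape of composable pairs -/
def duoShape (j m : ℕ) (hm : j < m) : Shape := (globe (j + 1)).glue j m (Nat.lt_add_one j) hm

/-- the shape of composable triples -/
def triShape (j m : ℕ) (hm : j < m) : Shape :=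
  (duoShape j m hm).glue j (j + 1) hm (Nat.lt_add_one j)

/-- a tuple as a triple -/
noncomputable def triOfV {X : C.GlobModel} {j m : ℕ} {hm : j < m} (x : V X (triShape j m hm)) :
    Tri X j m hm where
  γ := gL (S := globe (j + 1)) (gL (S := duoShape j m hm) x)
  z := gR (S := globe (j + 1)) (gL (S := duoShape j m hm) x)
  δ := gR (S := duoShape j m hm) x
  h1 := (congrArg (fc (Nat.lt_add_one j) true) (apx_globe _)).symm.trans
    (fc_apx_gL (S := globe (j + 1)) (gL (S := duoShape j m hm) x))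
  h2 := (fc_apx_gL (S := duoShape j m hm) x).symm

lemma triOfV_inj {X : C.GlobModel} {j m : ℕ} {hm : j < m} {x y : V X (triShape j m hm)}
    (h : triOfV x = triOfV y) : x = y :=
  g_ext (S := duoShape j m hm)
    (g_ext (S := globe (j + 1)) (congrArg Tri.γ h) (congrArg Tri.z h)) (congrArg Tri.δ h)

lemma triOfV_surj {X : C.GlobModel} {j m : ℕ} {hm : j < m} (t : Tri X j m hm) :
    ∃ x, triOfV x = t := by
  obtain ⟨y, h1, h2⟩ := g_exists (S := globe (j + 1)) (Nat.lt_add_one j) hm t.γ t.z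
    ((congrArg (fc (Nat.lt_add_one j) true) (apx_globe _)).trans t.h1)
  obtain ⟨x, h3, h4⟩ := g_exists (S := duoShape j m hm) hm (Nat.lt_add_one j) y t.δ
    ((congrArg (fc hm true) h2).trans t.h2.symm)
  refine ⟨x, ?_⟩
  ext
  · exact (congrArg _ h3).trans h1
  · exact (congrArg _ h3).trans h2
  · exact h4

lemma triOfV_ap {X Y : C.GlobModel} (g : X ⟶ Y) {j m : ℕ} {hm : j < m}
    (x : V X (triShape j m hm)) : triOfV (ap g x) = (triOfV x).map g := by
  ext
  · exact ((ap_gL g _).trans (congrArg _ (ap_gL g x))).symm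
  · exact ((ap_gR g _).trans (congrArg _ (ap_gL g x))).symm
  · exact (ap_gR g x).symm

/-- natural operations on triples -/
def TriNat {j m : ℕ} {hm : j < m} {M : ℕ} (f : ∀ X : C.GlobModel, Tri X j m hm → Cl X M) : Prop :=
  ∀ (X Y : C.GlobModel) (g : X ⟶ Y) (t : Tri X j m hm), ap g (f X t) = f Y (t.map g)

lemma tri_fill (hC : C.IsCoheratorTheory) {j m : ℕ} {hm : j < m} {M : ℕ} (hM : m ≤ M + 1)
    (f g : ∀ X : C.GlobModel, Tri X j m hm → Cl X M) (hf : TriNat f) (hg : TriNat g)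
    (hpar : ∀ X t, Par (f X t) (g X t)) :
    ∃ h : ∀ X : C.GlobModel, Tri X j m hm → Cl X (M + 1), TriNat h ∧
      ∀ X t, ∂₀ (h X t) = f X t ∧ ∂₁ (h X t) = g X t := by
  let G := triShape j m hm
  obtain ⟨w, hw1, hw2⟩ := con_free hC G M (by
    simp only [G, triShape, duoShape, dim_glue, dim_globe]; omega) _ _
    (hpar _ (triOfV (univ C G)))
  choose v hv using fun (X : C.GlobModel) (t : Tri X j m hm) => triOfV_surj t
  refine ⟨fun X t => ap (cls (v X t)) w, fun X Y g t => ?_, fun X t => ⟨?_, ?_⟩⟩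
  · have : v Y (t.map g) = ap g (v X t) := triOfV_inj (by rw [hv, triOfV_ap, hv])
    simp only
    rw [this, ← cls_comp, ap_comp]
  · rw [← ap_fc, hw1, hf, ← triOfV_ap, ap_cls_univ, hv]
  · rw [← ap_fc, hw2, hg, ← triOfV_ap, ap_cls_univ, hv]

/-- chosen operations -/
structure Ops (C : GlobTheory.{u}) where
  unit : ∀ {X : C.GlobModel} {m : ℕ}, Cl X m → Cl X (m + 1)
  inv : ∀ {X : C.GlobModel} {m : ℕ}, Cl X (m + 1) → Cl X (m + 1)
  W : ∀ {X : C.GlobModel} {j m : ℕ} {hm : j < m}, Tri X j m hm → Cl X m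
  src_unit : ∀ {X : C.GlobModel} {m : ℕ} (x : Cl X m), ∂₀ (unit x) = x
  tgt_unit : ∀ {X : C.GlobModel} {m : ℕ} (x : Cl X m), ∂₁ (unit x) = x
  ap_unit : ∀ {X Y : C.GlobModel} (g : X ⟶ Y) {m : ℕ} (x : Cl X m), ap g (unit x) = unit (ap g x)
  src_inv : ∀ {X : C.GlobModel} {m : ℕ} (x : Cl X (m + 1)), ∂₀ (inv x) = ∂₁ x
  tgt_inv : ∀ {X : C.GlobModel} {m : ℕ} (x : Cl X (m + 1)), ∂₁ (inv x) = ∂₀ x
  ap_inv : ∀ {X Y : C.GlobModel} (g : X ⟶ Y) {m : ℕ} (x : Cl X (m + 1)),
    ap g (inv x) = inv (ap g x)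
  ap_W : ∀ {X Y : C.GlobModel} (g : X ⟶ Y) {j m : ℕ} {hm : j < m} (t : Tri X j m hm),
    ap g (W t) = W (t.map g)
  fc_W_hi : ∀ {X : C.GlobModel} {j m : ℕ} {hm : j < m} (t : Tri X j m hm) {i : ℕ} (hj : j < i)
    (h : i < m) (b : Bool), fc h b (W t) = W (t.face hj h b)
  fc_W_false : ∀ {X : C.GlobModel} {j m : ℕ} {hm : j < m} (t : Tri X j m hm),
    fc hm false (W t) = ∂₀ t.γ
  fc_W_true : ∀ {X : C.GlobModel} {j m : ℕ} {hm : j < m} (t : Tri X j m hm),
    fc hm true (W t) = ∂₁ t.δ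

lemma exists_W (hC : C.IsCoheratorTheory) (j : ℕ) :
    ∃ W : ∀ m (hm : j < m) (X : C.GlobModel), Tri X j m hm → Cl X m, ∀ m hm, TriNat (W m hm) ∧
      (∀ X t i (hj : j < i) (h : i < m) b, fc h b (W m hm X t) = W i hj X (t.face hj h b)) ∧
      ∀ X t, fc hm false (W m hm X t) = ∂₀ t.γ ∧ fc hm true (W m hm X t) = ∂₁ t.δ := by
  refine exists_family (α := fun m => ∀ (hm : j < m) (X : C.GlobModel), Tri X j m hm → Cl X m)
    (fun m F a => ∀ hm, TriNat (a hm) ∧
      (∀ X t i (hj : j < i) (h : i < m) b, fc h b (a hm X t) = F i h hj X (t.face hj h b)) ∧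
      ∀ X t, fc hm false (a hm X t) = ∂₀ t.γ ∧ fc hm true (a hm X t) = ∂₁ t.δ) ?_
  intro m F hF
  by_cases hm : j < m
  swap
  · exact ⟨fun h => absurd h hm, fun h => absurd h hm⟩
  obtain ⟨m, rfl⟩ : ∃ m', m = m' + 1 := ⟨m - 1, by omega⟩
  rcases Nat.lt_succ_iff_lt_or_eq.1 hm with hj | rfl
  · have hlt := Nat.lt_add_one m
    obtain ⟨n1, n2, n3⟩ := hF m hlt hj
    obtain ⟨h, hn, hh⟩ := tri_fill hC (hm := hm) le_rfl
      (fun X t => F m hlt hj X (t.face hj hlt false)) (fun X t => F m hlt hj X (t.face hj hlt true))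
      (fun X Y g t => by simp only; rw [n1, Tri.map_face])
      (fun X Y g t => by simp only; rw [n1, Tri.map_face]) (by
        intro X t i hi b
        rcases lt_trichotomy j i with h | rfl | h
        · rw [n2 _ _ _ h, n2 _ _ _ h, Tri.face_face, Tri.face_face]
        · cases b
          · rw [(n3 _ _).1, (n3 _ _).1]; rfl
          · rw [(n3 _ _).2, (n3 _ _).2]; rfl
        · rw [← fc_fc h hj b false, ← fc_fc h hj b false (F m hlt hj X (t.face hj hlt true)),
            (n3 _ _).1, (n3 _ _).1]; rfl)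
    refine ⟨fun _ => h, fun _ => ⟨hn, ?_, ?_⟩⟩
    · intro X t i hji hi b
      rcases Nat.lt_succ_iff_lt_or_eq.1 hi with h' | rfl
      · rw [← fc_fc h' hlt b false, (hh X t).1, n2 _ _ _ hji, Tri.face_face]
      · cases b
        · exact (hh X t).1
        · exact (hh X t).2
    · intro X t
      constructor
      · rw [← fc_fc hj hlt false false, (hh X t).1, (n3 _ _).1]; rfl
      · rw [← fc_fc hj hlt true false, (hh X t).1, (n3 _ _).2]; rfl
  · obtain ⟨h, hn, hh⟩ := tri_fill hC (hm := hm) le_rfl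
      (fun X t => ∂₀ t.γ) (fun X t => ∂₁ t.δ)
      (fun X Y g t => by simp) (fun X Y g t => by simp) (by
        intro X t
        refine (par_src_tgt t.γ).trans (Par.trans ?_ (par_src_tgt t.δ))
        rw [t.h1, t.h2]
        exact par_src_tgt t.z)
    exact ⟨fun _ => h, fun _ => ⟨hn, fun X t i hji hi b => by omega, hh⟩⟩

theorem exists_ops (hC : C.IsCoheratorTheory) : Nonempty (Ops C) := by
  choose W hW using exists_W hC
  choose e he1 he2 using fun m => Rel.refl hC (univ C (globe m))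
  choose v hv1 hv2 using fun m => Rel.symm hC (X := Fr C (globe (m + 1))) (m := m)
    ⟨univ C (globe (m + 1)), rfl, rfl⟩
  exact ⟨{
    unit := fun x => ap (cls x) (e _)
    inv := fun x => ap (cls x) (v _)
    W := fun t => W _ _ _ _ t
    src_unit := fun x => by rw [← ap_fc, he1, ap_cls_univ]
    tgt_unit := fun x => by rw [← ap_fc, he2, ap_cls_univ]
    ap_unit := fun g _ x => by rw [← cls_comp, ap_comp]
    src_inv := fun x => by rw [← ap_fc, hv1, ap_fc, ap_cls_univ]
    tgt_inv := fun x => by rw [← ap_fc, hv2, ap_fc, ap_cls_univ]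
    ap_inv := fun g _ x => by rw [← cls_comp, ap_comp]
    ap_W := fun g _ _ _ t => (hW _ _ _).1 _ _ g t
    fc_W_hi := fun t _ hj h b => (hW _ _ _).2.1 _ t _ hj h b
    fc_W_false := fun t => ((hW _ _ _).2.2 _ t).1
    fc_W_true := fun t => ((hW _ _ _).2.2 _ t).2 }⟩

attribute [simp] Ops.src_unit Ops.tgt_unit Ops.ap_unit Ops.src_inv Ops.tgt_inv Ops.ap_inv

end Crest.Agent.R248
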