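import Crest.Agent.R248.Htpy

/-! Consequences of a relative path structure: whisker extensions are truncated equivalences. -/

set_option autoImplicit false
set_option linter.unusedVariables false
open CategoryTheory CategoryTheory.Limits Opposite Crest.GeometryTopology.Coherator
universe u

namespace Crest.Agent.R248

open GlobTheory Shape

noncomputable section

variable {C : GlobTheory.{u}}

/-- coskeleton structure -/
structure KStr (C : GlobTheory.{u}) (n : ℕ) where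
  K : (LK C n).ActStr
  hK : ∀ {S T : Shape} (o : C.arr S T) (X : C.GlobModel) (ξ : V X T),
    K.A o X (tr n ξ) = tr n (act X o ξ)

namespace KStr

variable {n : ℕ} (K : KStr C n)

/-- the coskeleton model -/
abbrev M (X : C.GlobModel) : C.GlobModel := K.K.model X

/-- the unit -/
def η (X : C.GlobModel) : X ⟶ K.M X := mkHom (fun _ ξ => tr n ξ) (fun _ _ o x => (K.hK o X x).symm)

lemma η_val {X : C.GlobModel} {m : ℕ} (hm : m ≤ n) (x : Cl X m) :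
    TM.val (ap (K.η X) x) m hm (𝟙 _) = x := ev_id X x

lemma cell_ext {X : C.GlobModel} {m : ℕ} {x y : Cl (K.M X) m} (h1 : Par x y)
    (h2 : ∀ hm, TM.val x m hm (𝟙 _) = TM.val y m hm (𝟙 _)) : x = y :=
  TM.globe_ext (fun i h b => (K.K.fc_model X h b x).symm.trans
    ((h1 i h b).trans (K.K.fc_model X h b y))) h2

end KStr

/-- relative path structure -/
structure QStr (O : Ops C) {n : ℕ} (K : KStr C n) (k : ℕ) where
  Q : (LQ O k n).ActStr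
  hb : ∀ {S T : Shape} (o : C.arr S T) (X : C.GlobModel) (ξ : HP O k n (n + 1) le_rfl X T),
    HP.bot (Q.A o X ξ) = K.K.A o X ξ.bot
  ht : ∀ {S T : Shape} (o : C.arr S T) (X : C.GlobModel) (ξ : HP O k n (n + 1) le_rfl X T),
    HP.top (Q.A o X ξ) = K.K.A o X ξ.top

lemma coh1 (hC : C.IsCoheratorTheory) (O : Ops C) {X : C.GlobModel} {k : ℕ} (γ z : Cl X (k + 1))
    (h : ∂₁ γ = ∂₀ z) :
    Rel (O.Wt k γ (O.unit (∂₁ z)) z) (O.Wt k γ z (O.unit (∂₀ z))) := by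
  have hk := Nat.lt_add_one k
  obtain ⟨w, -, hw⟩ := tri_fill hC (hm := hk) (Nat.le_succ _)
    (fun X t => O.Wt k t.γ (O.unit (∂₁ t.z)) t.z) (fun X t => O.Wt k t.γ t.z (O.unit (∂₀ t.z)))
    (fun X Y g t => by
      simp only
      rw [O.ap_Wt hk t.h1 (O.src_unit _)]; simp)
    (fun X Y g t => by
      simp only
      rw [O.ap_Wt hk (t.h1.trans (O.src_unit _).symm) (O.tgt_unit _).symm]; simp)
    (fun X t => par_of_succ
      (by rw [O.fc_Wt_false hk t.h1 (O.src_unit _),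
        O.fc_Wt_false hk (t.h1.trans (O.src_unit _).symm) (O.tgt_unit _).symm])
      (by rw [O.fc_Wt_true hk t.h1 (O.src_unit _),
        O.fc_Wt_true hk (t.h1.trans (O.src_unit _).symm) (O.tgt_unit _).symm, O.tgt_unit]))
  exact ⟨_, hw X ⟨γ, z, O.unit (∂₁ z), h, O.src_unit _⟩⟩

namespace QStr

variable {O : Ops C} {n : ℕ} {K : KStr C n} {k : ℕ} (Q : QStr O K k)

/-- the path model -/
abbrev M (X : C.GlobModel) : C.GlobModel := Q.Q.model X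

/-- bottom projection -/
def π0 (X : C.GlobModel) : Q.M X ⟶ K.M X :=
  mkHom (fun _ ξ => HP.bot ξ) (fun _ _ o x => Q.hb o X x)

/-- top projection -/
def π1 (X : C.GlobModel) : Q.M X ⟶ K.M X :=
  mkHom (fun _ ξ => HP.top ξ) (fun _ _ o x => Q.ht o X x)

lemma lift {X : C.GlobModel} {m : ℕ} (s : ∀ i, i < m → Bool → Cl (Q.M X) i) (hs : IsSph s)
    (z : Cl (K.M X) m) (hz : ∀ i h b, fc h b z = ap (Q.π0 X) (s i h b))
    (w : k ≤ m → m < n + 1 → Cl X (m + 1))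
    (hw : ∀ hk hm, ∂₀ (w hk hm) = O.Tr k m (HP.sphSide (hr := le_rfl) hm.le s)
      (TM.val z m (Nat.le_of_lt_succ hm) (𝟙 _))) :
    ∃ q : Cl (Q.M X) m, (∀ i h b, fc h b q = s i h b) ∧ ap (Q.π0 X) q = z ∧
      ∀ hk hm, HP.fil q m hk hm (𝟙 _) = w hk hm := by
  obtain ⟨q, h1, h2, h3⟩ := HP.globe_ex (hr := le_rfl) s
    (fun i j h hi b b' => (Q.Q.fc_model X h b _).symm.trans (hs i j h hi b b')) z
    (fun i h b => (K.K.fc_model X h b z).symm.trans (hz i h b)) w hw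
  exact ⟨q, fun i h b => (Q.Q.fc_model X h b q).trans (h1 i h b), h2, h3⟩

lemma trivFib (X : C.GlobModel) : TrivFib (Q.π0 X) := by
  intro m s hs z hz
  obtain ⟨q, h1, h2, -⟩ := Q.lift s hs z hz (fun _ _ => O.unit _) (fun _ _ => O.src_unit _)
  exact ⟨q, h1, h2⟩

lemma rel_iff (hC : C.IsCoheratorTheory) {X : C.GlobModel} {m : ℕ} (hm : m ≤ n)
    {q q' : Cl (Q.M X) m} (h : Par q q') :
    Rel (TM.val (ap (Q.π0 X) q) m hm (𝟙 _)) (TM.val (ap (Q.π0 X) q') m hm (𝟙 _)) ↔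
      Rel (TM.val (ap (Q.π1 X) q) m hm (𝟙 _)) (TM.val (ap (Q.π1 X) q') m hm (𝟙 _)) :=
  HP.rel_iff hC hm (fun i hi b => (Q.Q.fc_model X hi b q).symm.trans
    ((h i hi b).trans (Q.Q.fc_model X hi b q')))

lemma π1_val_hi {X : C.GlobModel} {m : ℕ} (hk : k ≤ m) (hm : m ≤ n) (q : Cl (Q.M X) m) :
    TM.val (ap (Q.π1 X) q) m hm (𝟙 _) = ∂₁ (HP.fil q m hk (Nat.lt_succ_of_le hm) (𝟙 _)) :=
  HP.top_hi q hk hm _

lemma π1_val_lo {X : C.GlobModel} {m : ℕ} (hk : m < k) (hm : m ≤ n) (q : Cl (Q.M X) m) :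
    TM.val (ap (Q.π1 X) q) m hm (𝟙 _) = TM.val (ap (Q.π0 X) q) m hm (𝟙 _) :=
  HP.top_lo q hk hm _

lemma src_fil_base {X : C.GlobModel} (hm : k < n + 1) (q : Cl (Q.M X) k) :
    ∂₀ (HP.fil q k le_rfl hm (𝟙 _)) = TM.val (ap (Q.π0 X) q) k (Nat.le_of_lt_succ hm) (𝟙 _) :=
  (HP.src_fil q k le_rfl hm _).trans (O.Tr_le le_rfl _ _)

lemma Tr_sphOf {X : C.GlobModel} (hm : k + 1 < n + 1) (c d : Cl (Q.M X) k) (z : Cl X (k + 1)) :
    O.Tr k (k + 1) (HP.sphSide (hr := le_rfl) hm.le (sphOf c d)) z =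
      O.Wt k (O.inv (HP.fil c k le_rfl (by omega) (𝟙 _))) (HP.fil d k le_rfl (by omega) (𝟙 _))
        z := by
  rw [O.Tr_succ le_rfl, O.Tr_le le_rfl]
  simp only [HP.sphSide, sphOf_top]
  rfl

include Q in
theorem exists_HH (hC : C.IsCoheratorTheory) {X Y : C.GlobModel} {i : X ⟶ Y} {I : Type}
    {a : I → Cl X k} {p : I → Cl Y (k + 1)} (hW : IsWh k i a p) (hX : Cof X)
    (r : Y ⟶ X) (hr1 : i ≫ r = 𝟙 X) (hr2 : ∀ t, ap r (p t) = O.unit (a t)) :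
    ∃ H H' : Y ⟶ Q.M Y, i ≫ H = i ≫ H' ∧ H ≫ Q.π0 Y = r ≫ i ≫ K.η Y ∧ H' ≫ Q.π0 Y = K.η Y ∧
      H ≫ Q.π1 Y = H' ≫ Q.π1 Y := by
  obtain ⟨H0, hH0⟩ := hX _ _ _ (Q.trivFib Y) (i ≫ K.η Y)
  have key : ∀ t, ∃ P P' : Cl (Q.M Y) (k + 1), ∂₀ P = ap H0 (a t) ∧ ∂₀ P' = ap H0 (a t) ∧
      ap (Q.π0 Y) P = ap (K.η Y) (O.unit (ap i (a t))) ∧ ap (Q.π0 Y) P' = ap (K.η Y) (p t) ∧
      ap (Q.π1 Y) P = ap (Q.π1 Y) P' := by
    intro t
    set c := ap H0 (a t) with hc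
    have hc0 : ap (Q.π0 Y) c = ap (K.η Y) (∂₀ (p t)) := by
      rw [hc, ← ap_comp, hH0, ap_comp, hW.src_p]
    obtain ⟨d, hd1, hd2, hd3⟩ := Q.lift _ (isSph_fc c) (ap (K.η Y) (∂₀ (p t)))
      (fun j h b => by rw [← hc0, ap_fc]) (fun _ _ => p t)
      (fun _ _ => by rw [O.Tr_le le_rfl, K.η_val])
    obtain ⟨d', hd1', hd2', hd3'⟩ := Q.lift _ (isSph_fc c) (ap (K.η Y) (∂₁ (p t)))
      (fun j h b => by rw [ap_fc (Q.π0 Y), hc0, ← ap_fc, ← ap_fc, fc_fc, fc_fc])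
      (fun _ _ => O.unit (∂₁ (p t))) (fun _ _ => by rw [O.Tr_le le_rfl, K.η_val, O.src_unit])
    have hcd : Par c d := fun j h b => (hd1 j h b).symm
    have hcd' : Par c d' := fun j h b => (hd1' j h b).symm
    obtain ⟨P, hP1, hP2, hP3⟩ := Q.lift _ (isSph_sphOf hcd) (ap (K.η Y) (O.unit (∂₀ (p t))))
      (fc_eq_sphOf _ (by rw [← ap_fc, O.src_unit, hc0]) (by rw [← ap_fc, O.tgt_unit, hd2]))
      (fun _ _ => O.unit _) (fun _ _ => O.src_unit _)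
    have hω : ∀ hm : k + 1 < n + 1,
        Rel (O.Tr k (k + 1) (HP.sphSide (hr := le_rfl) hm.le (sphOf c d')) (p t))
          (O.Tr k (k + 1) (HP.sphSide (hr := le_rfl) hm.le (sphOf c d)) (O.unit (∂₀ (p t)))) := by
      intro hm
      rw [Q.Tr_sphOf hm, Q.Tr_sphOf hm, hd3, hd3']
      apply coh1 hC
      rw [O.tgt_inv, Q.src_fil_base, hc0, K.η_val]
    choose ω hω1 hω2 using hω
    obtain ⟨P', hP1', hP2', hP3'⟩ := Q.lift _ (isSph_sphOf hcd') (ap (K.η Y) (p t))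
      (fc_eq_sphOf _ (by rw [← ap_fc, hc0]) (by rw [← ap_fc, hd2']))
      (fun _ hm => ω hm) (fun _ hm => by rw [hω1, K.η_val])
    have e0 : ∂₀ P = c := (hP1 _ _ _).trans (sphOf_top _ _ _ _)
    have e0' : ∂₀ P' = c := (hP1' _ _ _).trans (sphOf_top _ _ _ _)
    have e1 : ∂₁ P = d := (hP1 _ _ _).trans (sphOf_top _ _ _ _)
    have e1' : ∂₁ P' = d' := (hP1' _ _ _).trans (sphOf_top _ _ _ _)
    refine ⟨P, P', e0, e0', by rw [hP2, hW.src_p], hP2', ?_⟩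
    apply K.cell_ext
    · apply par_of_succ
      · rw [← ap_fc, ← ap_fc, e0, e0']
      · rw [← ap_fc, ← ap_fc, e1, e1']
        apply K.cell_ext ((hcd.symm.trans hcd').map _)
        intro hm
        rw [Q.π1_val_hi le_rfl, Q.π1_val_hi le_rfl, hd3, hd3', O.tgt_unit]
    · intro hm
      rw [Q.π1_val_hi (Nat.le_succ k), Q.π1_val_hi (Nat.le_succ k), hP3, hP3', O.tgt_unit, hω2,
        K.η_val]
  choose P P' h1 h2 h3 h4 h5 using key
  obtain ⟨H, hH1, hH2⟩ := hW.ex _ H0 P h1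
  obtain ⟨H', hH1', hH2'⟩ := hW.ex _ H0 P' h2
  refine ⟨H, H', hH1.trans hH1'.symm, hW.ext _ _ _ ?_ (fun t => ?_), hW.ext _ _ _ ?_ (fun t => ?_),
    hW.ext _ _ _ ?_ (fun t => ?_)⟩
  · rw [← Category.assoc, hH1, hH0, ← Category.assoc i r, hr1, Category.id_comp]
  · rw [ap_comp, hH2, h3, ap_comp, ap_comp, hr2, O.ap_unit i]
  · rw [← Category.assoc, hH1', hH0]
  · rw [ap_comp, hH2', h4]
  · rw [← Category.assoc, hH1, ← Category.assoc, hH1']
  · rw [ap_comp, hH2, h5, ap_comp, hH2']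

include Q in
theorem wh_rel (hC : C.IsCoheratorTheory) {X Y : C.GlobModel} {i : X ⟶ Y} {I : Type}
    {a : I → Cl X k} {p : I → Cl Y (k + 1)} (hW : IsWh k i a p) (hX : Cof X)
    (r : Y ⟶ X) (hr1 : i ≫ r = 𝟙 X) (hr2 : ∀ t, ap r (p t) = O.unit (a t))
    {m : ℕ} (hm : m ≤ n) (t : Cl Y m) (ht : ∀ j (h : j < m) b, ∃ x, fc h b t = ap i x) :
    Rel (ap i (ap r t)) t := by
  obtain ⟨H, H', h1, h2, h3, h4⟩ := Q.exists_HH hC hW hX r hr1 hr2
  have hp : Par (ap H t) (ap H' t) := by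
    intro j h b
    obtain ⟨x, hx⟩ := ht j h b
    rw [← ap_fc, ← ap_fc, hx, ← ap_comp, h1, ap_comp]
  have := (Q.rel_iff hC hm hp).2 (by
    rw [← ap_comp, h4, ap_comp]; exact Rel.refl hC _)
  rwa [← ap_comp, ← ap_comp, h2, h3, ap_comp, ap_comp, K.η_val, K.η_val] at this

include Q in
theorem wh_con (hC : C.IsCoheratorTheory) {X Y : C.GlobModel} {i : X ⟶ Y} {I : Type}
    {a : I → Cl X k} {p : I → Cl Y (k + 1)} (hW : IsWh k i a p) (hX : Cof X)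
    {m : ℕ} (hm : m ≤ n) (hcon : Con X m) : Con Y m := by
  obtain ⟨r, hr1, hr2⟩ := hW.ex X (𝟙 X) (fun t => O.unit (a t)) (fun t => O.src_unit _)
  obtain ⟨H, H', h1, h2, h3, h4⟩ := Q.exists_HH hC hW hX r hr1 hr2
  intro t t' hp
  have r1 := (Q.rel_iff hC hm (hp.map H)).1 (by
    rw [← ap_comp, ← ap_comp, h2, ap_comp, ap_comp, ap_comp, ap_comp, K.η_val, K.η_val]
    exact (hcon _ _ (hp.map r)).map i)
  rw [← ap_comp, ← ap_comp, h4, ap_comp, ap_comp] at r1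
  have := (Q.rel_iff hC hm (hp.map H')).2 r1
  rwa [← ap_comp, ← ap_comp, h3, K.η_val, K.η_val] at this

end QStr

end

end Crest.Agent.R248
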