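import Crest.Agent.R248.Basic

/-! The section lemma: a (possibly large) theory over a coherator with the filler lifting property
has a section; and a dependent-choice principle for families indexed by dimension. -/

set_option autoImplicit false
open CategoryTheory CategoryTheory.Limits Opposite Crest.GeometryTopology.Coherator
universe u v w

namespace Crest.Agent.R248

open GlobTheory Shape

/-- strong dependent choice -/
theorem exists_family {α : ℕ → Type w} (Spec : ∀ m, (∀ i, i < m → α i) → α m → Prop)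
    (step : ∀ m (F : ∀ i, i < m → α i),
      (∀ i (h : i < m), Spec i (fun i' h' => F i' (h'.trans h)) (F i h)) → ∃ a, Spec m F a) :
    ∃ F : ∀ m, α m, ∀ m, Spec m (fun i _ => F i) (F m) := by
  classical
  let G : ∀ m, Option (α m) := fun m => Nat.strongRec (motive := fun m => Option (α m))
    (fun m rec => if h : ∃ a : α m, ∃ F : ∀ i, i < m → α i,
      (∀ i hi, rec i hi = some (F i hi)) ∧ Spec m F a then some h.choose else none) m
  have hG : ∀ m, G m = if h : ∃ a : α m, ∃ F : ∀ i, i < m → α i,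
      (∀ i hi, G i = some (F i hi)) ∧ Spec m F a then some h.choose else none := by
    intro m
    exact Nat.strongRec_eq _ m
  have key : ∀ m, ∃ a, G m = some a ∧ ∀ F : ∀ i, i < m → α i,
      (∀ i hi, G i = some (F i hi)) → Spec m F a := by
    intro m
    induction m using Nat.strong_induction_on with
    | _ m ih =>
      choose F hF1 hF2 using ih
      obtain ⟨a, ha⟩ := step m F (fun i h => hF2 i h _ (fun i' hi' => hF1 i' (hi'.trans h)))
      have hex : ∃ a : α m, ∃ F : ∀ i, i < m → α i,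
          (∀ i hi, G i = some (F i hi)) ∧ Spec m F a := ⟨a, F, hF1, ha⟩
      refine ⟨hex.choose, by rw [hG, dif_pos hex], fun F' hF' => ?_⟩
      obtain ⟨F'', h1, h2⟩ := hex.choose_spec
      have : F' = F'' := by
        funext i hi
        have := (hF' i hi).symm.trans (h1 i hi)
        exact Option.some.inj this
      rw [this]; exact h2
  choose F hF1 hF2 using key
  exact ⟨F, fun m => hF2 m _ (fun i _ => hF1 i)⟩

/-- parallel operations in a pre-theory -/
def PrePar (E : PreTheory.{v}) {S : Shape} {m : ℕ} (f g : E.arr (globe m) S) : Prop :=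
  ∀ i (h : i < m) b, E.seq (E.ofShape (faceMap h b)) f = E.seq (E.ofShape (faceMap h b)) g

lemma prePar_of_opsParallel {D : GlobTheory.{v}} {S : Shape} {m : ℕ} {f g : D.arr (globe m) S}
    (h : D.OpsParallel m f g) : PrePar D.toPreTheory f g := by
  cases m with
  | zero => intro i hi; omega
  | succ m =>
    intro i hi b
    rcases Nat.lt_succ_iff_lt_or_eq.1 hi with h' | rfl
    · rw [← faceMap_comp h' (Nat.lt_succ_self m) b false, D.ofShape_comp, D.seq_assoc,
        D.seq_assoc]
      exact congrArg _ h.1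
    · cases b
      · exact h.1
      · exact h.2

lemma respects_of_pair (E : PreTheory.{v})
    (pair_ex : ∀ (S : Shape) b h hb hh (T : Shape) (f : E.arr S T) (g : E.arr (globe h) T),
      E.seq (E.ofShape (S.hinge hb)) f = E.seq (E.ofShape (faceMap hh false)) g →
      ∃ p : E.arr (S.glue b h hb hh) T, E.seq (E.ofShape (S.inLeft b h hb hh)) p = f ∧
        E.seq (E.ofShape (S.inRight b h hb hh)) p = g)
    (pair_ext : ∀ (S : Shape) b h hb hh (T : Shape) (p q : E.arr (S.glue b h hb hh) T),
      E.seq (E.ofShape (S.inLeft b h hb hh)) p = E.seq (E.ofShape (S.inLeft b h hb hh)) q →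
      E.seq (E.ofShape (S.inRight b h hb hh)) p = E.seq (E.ofShape (S.inRight b h hb hh)) q →
      p = q) : E.RespectsSums := by
  intro S b h hb hh
  have w : E.incl.map (S.hinge hb) ≫ E.incl.map (S.inLeft b h hb hh) =
      E.incl.map (faceMap hh false) ≫ E.incl.map (S.inRight b h hb hh) := by
    rw [← Functor.map_comp, ← Functor.map_comp, glue_w]
  have key : ∀ s : PushoutCocone (E.incl.map (S.hinge hb)) (E.incl.map (faceMap hh false)),
      ∃ p : E.arr (S.glue b h hb hh) s.pt.shape,
        E.seq (E.ofShape (S.inLeft b h hb hh)) p = s.inl ∧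
        E.seq (E.ofShape (S.inRight b h hb hh)) p = s.inr :=
    fun s => pair_ex S b h hb hh s.pt.shape s.inl s.inr s.condition
  choose d hd1 hd2 using key
  exact ⟨⟨w⟩, ⟨PushoutCocone.IsColimit.mk w d hd1 hd2 (fun s m h1 h2 =>
    pair_ext S b h hb hh s.pt.shape m (d s) (h1.trans (hd1 s).symm) (h2.trans (hd2 s).symm))⟩⟩

/-- A possibly large theory over `C` with the filler lifting property. -/
structure Over (C : GlobTheory.{u}) where
  E : PreTheory.{v}
  pair_ex : ∀ (S : Shape) b h hb hh (T : Shape) (f : E.arr S T) (g : E.arr (globe h) T),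
    E.seq (E.ofShape (S.hinge hb)) f = E.seq (E.ofShape (faceMap hh false)) g →
    ∃ p : E.arr (S.glue b h hb hh) T, E.seq (E.ofShape (S.inLeft b h hb hh)) p = f ∧
      E.seq (E.ofShape (S.inRight b h hb hh)) p = g
  pair_ext : ∀ (S : Shape) b h hb hh (T : Shape) (p q : E.arr (S.glue b h hb hh) T),
    E.seq (E.ofShape (S.inLeft b h hb hh)) p = E.seq (E.ofShape (S.inLeft b h hb hh)) q →
    E.seq (E.ofShape (S.inRight b h hb hh)) p = E.seq (E.ofShape (S.inRight b h hb hh)) q → p = q
  proj : ∀ {S T : Shape}, E.arr S T → C.arr S T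
  proj_one : ∀ S, proj (E.one S) = C.one S
  proj_seq : ∀ {R S T : Shape} (f : E.arr R S) (g : E.arr S T),
    proj (E.seq f g) = C.seq (proj f) (proj g)
  proj_ofShape : ∀ {S T : Shape} (f : S ⟶ T), proj (E.ofShape f) = C.ofShape f
  lift : ∀ (m : ℕ) (S : Shape), S.dim ≤ m + 1 → ∀ (θ : C.arr (globe (m + 1)) S)
    (f g : E.arr (globe m) S), PrePar E f g →
    C.seq (C.ofShape (σ m)) θ = proj f → C.seq (C.ofShape (τ m)) θ = proj g →
    ∃ z : E.arr (globe (m + 1)) S, proj z = θ ∧ E.seq (E.ofShape (σ m)) z = f ∧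
      E.seq (E.ofShape (τ m)) z = g

variable {C : GlobTheory.{u}}

/-- codes for generated operations -/
inductive Code (C : GlobTheory.{u}) : Shape → Shape → Type u
  | shp {S T : Shape} (f : S ⟶ T) : Code C S T
  | seq {R S T : Shape} (a : Code C R S) (c : Code C S T) : Code C R T
  | pair (S : Shape) (b h : ℕ) (hb : b < S.last) (hh : b < h) {T : Shape} (a : Code C S T)
      (c : Code C (globe h) T) : Code C (S.glue b h hb hh) T
  | fill (m : ℕ) (S : Shape) (θ : C.arr (globe (m + 1)) S) (a c : Code C (globe m) S) :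
      Code C (globe (m + 1)) S

namespace Over

variable (O : Over.{u, v} C)

open Classical in
/-- evaluation of codes -/
noncomputable def eval : ∀ {S T : Shape}, Code C S T → Option (O.E.arr S T)
  | _, _, .shp f => some (O.E.ofShape f)
  | _, _, .seq a c => (eval a).bind fun x => (eval c).map fun y => O.E.seq x y
  | _, _, .pair S b h hb hh a c => (eval a).bind fun x => (eval c).bind fun y =>
      if hp : ∃ p, O.E.seq (O.E.ofShape (S.inLeft b h hb hh)) p = x ∧
        O.E.seq (O.E.ofShape (S.inRight b h hb hh)) p = y then some hp.choose else none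
  | _, _, .fill m _ θ a c => (eval a).bind fun x => (eval c).bind fun y =>
      if hp : ∃ z, O.proj z = θ ∧ O.E.seq (O.E.ofShape (σ m)) z = x ∧
        O.E.seq (O.E.ofShape (τ m)) z = y then some hp.choose else none

/-- generated operations -/
def Gen {S T : Shape} (x : O.E.arr S T) : Prop := ∃ c : Code C S T, O.eval c = some x

instance small_gen (S T : Shape) : Small.{u} {x : O.E.arr S T // O.Gen x} := by
  refine small_of_surjective
    (f := fun c : {c : Code C S T // (O.eval c).isSome} =>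
      (⟨(O.eval c.1).get c.2, c.1, by simp⟩ : {x : O.E.arr S T // O.Gen x})) ?_
  rintro ⟨x, c, hc⟩
  exact ⟨⟨c, by simp [hc]⟩, by simp [hc]⟩

lemma gen_shp {S T : Shape} (f : S ⟶ T) : O.Gen (O.E.ofShape f) := ⟨.shp f, rfl⟩

lemma gen_one (S : Shape) : O.Gen (O.E.one S) := by
  rw [← O.E.ofShape_id]; exact O.gen_shp _

lemma gen_seq {R S T : Shape} {x : O.E.arr R S} {y : O.E.arr S T} (hx : O.Gen x) (hy : O.Gen y) :
    O.Gen (O.E.seq x y) := by
  obtain ⟨a, ha⟩ := hx
  obtain ⟨c, hc⟩ := hy
  exact ⟨.seq a c, by simp [eval, ha, hc]⟩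

lemma gen_pair (S : Shape) (b h : ℕ) (hb : b < S.last) (hh : b < h) {T : Shape}
    {x : O.E.arr S T} {y : O.E.arr (globe h) T} (hx : O.Gen x) (hy : O.Gen y)
    (hxy : O.E.seq (O.E.ofShape (S.hinge hb)) x = O.E.seq (O.E.ofShape (faceMap hh false)) y) :
    ∃ p, O.Gen p ∧ O.E.seq (O.E.ofShape (S.inLeft b h hb hh)) p = x ∧
      O.E.seq (O.E.ofShape (S.inRight b h hb hh)) p = y := by
  obtain ⟨a, ha⟩ := hx
  obtain ⟨c, hc⟩ := hy
  have hp := O.pair_ex S b h hb hh T x y hxy
  exact ⟨hp.choose, ⟨.pair S b h hb hh a c, by simp [eval, ha, hc, hp]⟩, hp.choose_spec⟩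

lemma gen_fill (m : ℕ) (S : Shape) (hS : S.dim ≤ m + 1) (θ : C.arr (globe (m + 1)) S)
    {x y : O.E.arr (globe m) S} (hx : O.Gen x) (hy : O.Gen y) (hpar : PrePar O.E x y)
    (h1 : C.seq (C.ofShape (σ m)) θ = O.proj x) (h2 : C.seq (C.ofShape (τ m)) θ = O.proj y) :
    ∃ z, O.Gen z ∧ O.proj z = θ ∧ O.E.seq (O.E.ofShape (σ m)) z = x ∧
      O.E.seq (O.E.ofShape (τ m)) z = y := by
  obtain ⟨a, ha⟩ := hx
  obtain ⟨c, hc⟩ := hy
  have hp := O.lift m S hS θ x y hpar h1 h2
  exact ⟨hp.choose, ⟨.fill m S θ a c, by simp [eval, ha, hc, hp]⟩, hp.choose_spec⟩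

/-- small arrows -/
def SArr (S T : Shape) : Type u := Shrink.{u} {x : O.E.arr S T // O.Gen x}

/-- value of a small arrow -/
noncomputable def val {S T : Shape} (x : O.SArr S T) : O.E.arr S T :=
  ((equivShrink {x : O.E.arr S T // O.Gen x}).symm x).1

lemma gen_val {S T : Shape} (x : O.SArr S T) : O.Gen (O.val x) :=
  ((equivShrink {x : O.E.arr S T // O.Gen x}).symm x).2

/-- make a small arrow -/
noncomputable def smk {S T : Shape} (x : O.E.arr S T) (hx : O.Gen x) : O.SArr S T :=
  equivShrink {x : O.E.arr S T // O.Gen x} ⟨x, hx⟩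

@[simp] lemma val_smk {S T : Shape} (x : O.E.arr S T) (hx : O.Gen x) : O.val (O.smk x hx) = x := by
  simp [val, smk]

lemma val_inj {S T : Shape} {x y : O.SArr S T} (h : O.val x = O.val y) : x = y :=
  (equivShrink {x : O.E.arr S T // O.Gen x}).symm.injective (Subtype.ext h)

/-- the small pre-theory -/
noncomputable def sPre : PreTheory.{u} where
  arr := O.SArr
  one S := O.smk _ (O.gen_one S)
  seq f g := O.smk _ (O.gen_seq (O.gen_val f) (O.gen_val g))
  one_seq f := O.val_inj (by simp [O.E.one_seq])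
  seq_one f := O.val_inj (by simp [O.E.seq_one])
  seq_assoc f g h := O.val_inj (by simp [O.E.seq_assoc])
  ofShape f := O.smk _ (O.gen_shp f)
  ofShape_id S := O.val_inj (by simp [O.E.ofShape_id])
  ofShape_comp f g := O.val_inj (by simp [O.E.ofShape_comp])

@[simp] lemma val_one (S : Shape) : O.val (O.sPre.one S) = O.E.one S := O.val_smk _ _

@[simp] lemma val_seq {R S T : Shape} (f : O.sPre.arr R S) (g : O.sPre.arr S T) :
    O.val (O.sPre.seq f g) = O.E.seq (O.val f) (O.val g) := O.val_smk _ _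

@[simp] lemma val_ofShape {S T : Shape} (f : S ⟶ T) :
    O.val (O.sPre.ofShape f) = O.E.ofShape f := O.val_smk _ _

lemma sPre_respects : O.sPre.RespectsSums := by
  apply respects_of_pair
  · intro S b h hb hh T f g hfg
    have h1 := congrArg O.val hfg
    simp only [val_seq, val_ofShape] at h1
    obtain ⟨p, hp, hp1, hp2⟩ := O.gen_pair S b h hb hh (O.gen_val f) (O.gen_val g) h1
    exact ⟨O.smk p hp, O.val_inj (by simpa using hp1), O.val_inj (by simpa using hp2)⟩
  · intro S b h hb hh T p q h1 h2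
    have h1' := congrArg O.val h1
    have h2' := congrArg O.val h2
    simp only [val_seq, val_ofShape] at h1' h2'
    exact O.val_inj (O.pair_ext S b h hb hh T _ _ h1' h2')

/-- the small theory -/
noncomputable def sTh : GlobTheory.{u} := ⟨O.sPre, O.sPre_respects⟩

/-- its projection -/
noncomputable def sProj : TheoryMap O.sTh C where
  map x := O.proj (O.val x)
  map_one S := (congrArg O.proj (O.val_one S)).trans (O.proj_one S)
  map_seq f g := (congrArg O.proj (O.val_seq f g)).trans (O.proj_seq _ _)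
  map_ofShape f := (congrArg O.proj (O.val_ofShape f)).trans (O.proj_ofShape _)

lemma sLift {D : GlobTheory.{u}} (G : TheoryMap D O.sTh) (p : D.Admissible)
    (θ : C.arr (globe (p.n + 1)) p.shape) (hθ : IsFillerAlong (G.comp O.sProj) p θ) :
    ∃ z, IsFillerAlong G p z ∧ O.sProj.map z = θ := by
  have hpar : PrePar O.E (O.val (G.map p.lower)) (O.val (G.map p.upper)) := by
    have hp := prePar_of_opsParallel p.parallel
    intro i hi b
    have h1 := congrArg (fun x => O.val (G.map x)) (hp i hi b)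
    simp only [G.map_seq, G.map_ofShape] at h1
    exact (congrArg₂ O.E.seq (O.val_ofShape _).symm rfl).trans ((O.val_seq _ _).symm.trans
      (h1.trans ((O.val_seq _ _).trans (congrArg₂ O.E.seq (O.val_ofShape _) rfl))))
  obtain ⟨z, hz, h1, h2, h3⟩ := O.gen_fill p.n p.shape p.dim_le θ (O.gen_val (G.map p.lower))
    (O.gen_val (G.map p.upper)) hpar hθ.1 hθ.2
  refine ⟨O.smk z hz, ⟨O.val_inj ?_, O.val_inj ?_⟩, ?_⟩
  · refine (O.val_seq _ _).trans ?_
    rw [← h2]
    exact congrArg₂ O.E.seq (O.val_ofShape _) (O.val_smk _ _)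
  · refine (O.val_seq _ _).trans ?_
    rw [← h3]
    exact congrArg₂ O.E.seq (O.val_ofShape _) (O.val_smk _ _)
  · rw [← h1]
    exact congrArg O.proj (O.val_smk _ _)

lemma exists_sSection (T : C.Tower) : ∃ H : TheoryMap C O.sTh, ∀ {S S' : Shape} (o : C.arr S S'),
    O.sProj.map (H.map o) = o := by
  have step : ∀ r (G : TheoryMap (T.stage r) O.sTh), G.comp O.sProj = T.toEnd r →
      ∃ G' : TheoryMap (T.stage (r + 1)) O.sTh, G'.comp O.sProj = T.toEnd (r + 1) ∧
        (T.next r).comp G' = G := by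
    intro r G hG
    have hfill : ∀ i, IsFillerAlong (T.toEnd r) (T.prob r i)
        ((T.toEnd (r + 1)).map (T.fill r i)) := by
      intro i
      obtain ⟨h1, h2⟩ := (T.free r).1 i
      rw [← T.toEnd_comm r]
      constructor
      · rw [← (T.toEnd (r + 1)).map_ofShape, ← (T.toEnd (r + 1)).map_seq, h1]; rfl
      · rw [← (T.toEnd (r + 1)).map_ofShape, ← (T.toEnd (r + 1)).map_seq, h2]; rfl
    have hl : ∀ i, ∃ z, IsFillerAlong G (T.prob r i) z ∧
        O.sProj.map z = (T.toEnd (r + 1)).map (T.fill r i) :=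
      fun i => O.sLift G _ _ (hG ▸ hfill i)
    choose w hw1 hw2 using hl
    obtain ⟨G', ⟨hG1, hG2⟩, -⟩ := (T.free r).2 O.sTh G w hw1
    refine ⟨G', ?_, hG1⟩
    obtain ⟨H, -, hH⟩ := (T.free r).2 C (T.toEnd r) _ hfill
    refine (hH _ ⟨?_, fun i => ?_⟩).trans (hH _ ⟨T.toEnd_comm r, fun i => rfl⟩).symm
    · rw [← hG, ← hG1]; rfl
    · show O.sProj.map (G'.map (T.fill r i)) = _
      rw [hG2, hw2]
  choose nxt hn1 hn2 using step
  obtain ⟨u0⟩ := T.stage_zero O.sTh
  obtain ⟨u1⟩ := T.stage_zero C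
  let G : ∀ r, {G : TheoryMap (T.stage r) O.sTh // G.comp O.sProj = T.toEnd r} := fun r =>
    Nat.rec ⟨u0.default, Subsingleton.elim _ _⟩ (fun r G => ⟨nxt r G.1 G.2, hn1 r G.1 G.2⟩) r
  obtain ⟨H, hH, -⟩ := T.colim O.sTh (fun r => (G r).1) (fun r => hn2 r (G r).1 (G r).2)
  obtain ⟨H', -, hH'⟩ := T.colim C T.toEnd T.toEnd_comm
  have : H.comp O.sProj = TheoryMap.id C := by
    refine (hH' _ (fun r => ?_)).trans (hH' _ (fun r => rfl)).symm
    have e : (T.toEnd r).comp (H.comp O.sProj) = ((T.toEnd r).comp H).comp O.sProj := rfl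
    rw [e, hH r, (G r).2]
  exact ⟨H, fun o => congrArg (fun F : TheoryMap C C => F.map o) this⟩

/-- The section lemma. -/
theorem exists_section (hC : C.IsCoheratorTheory) :
    ∃ s : ∀ {S T : Shape}, C.arr S T → O.E.arr S T, (∀ S, s (C.one S) = O.E.one S) ∧
      (∀ {R S T : Shape} (f : C.arr R S) (g : C.arr S T), s (C.seq f g) = O.E.seq (s f) (s g)) ∧
      (∀ {S T : Shape} (f : S ⟶ T), s (C.ofShape f) = O.E.ofShape f) ∧
      ∀ {S T : Shape} (o : C.arr S T), O.proj (s o) = o := by
  obtain ⟨T⟩ := hC.1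
  obtain ⟨H, hH⟩ := O.exists_sSection T
  refine ⟨fun o => O.val (H.map o), fun S => ?_, fun f g => ?_, fun f => ?_, hH⟩
  · exact (congrArg O.val (H.map_one S)).trans (O.val_one S)
  · exact (congrArg O.val (H.map_seq f g)).trans (O.val_seq _ _)
  · exact (congrArg O.val (H.map_ofShape f)).trans (O.val_ofShape _)

end Over

end Crest.Agent.R248
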