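import Crest.Agent.R248.Ops

/-! Transport along cylinder boundaries by iterated whiskering. -/

set_option autoImplicit false
set_option linter.unusedVariables false
open CategoryTheory CategoryTheory.Limits Opposite Crest.GeometryTopology.Coherator
universe u

namespace Crest.Agent.R248

open GlobTheory Shape

variable {C : GlobTheory.{u}}

namespace Ops

variable (O : Ops C)

open Classical in
/-- total version of whiskering -/
noncomputable def Wt {X : C.GlobModel} (j : ℕ) (γ δ : Cl X (j + 1)) {l : ℕ} (z : Cl X l) :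
    Cl X l :=
  if h : ∃ hl : j < l, ∂₁ γ = fc hl false z ∧ ∂₀ δ = fc hl true z then
    O.W ⟨γ, z, δ, h.choose_spec.1, h.choose_spec.2⟩ else z

lemma Wt_eq {X : C.GlobModel} {j : ℕ} {γ δ : Cl X (j + 1)} {l : ℕ} {z : Cl X l} (hl : j < l)
    (h1 : ∂₁ γ = fc hl false z) (h2 : ∂₀ δ = fc hl true z) :
    O.Wt j γ δ z = O.W ⟨γ, z, δ, h1, h2⟩ := by
  rw [Wt, dif_pos ⟨hl, h1, h2⟩]

lemma W_eq {X : C.GlobModel} {j l : ℕ} {hl : j < l} (t : Tri X j l hl) :
    O.W t = O.Wt j t.γ t.δ t.z := (O.Wt_eq hl t.h1 t.h2).symm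

section
variable {X : C.GlobModel} {j : ℕ} {γ δ : Cl X (j + 1)} {l : ℕ} {z : Cl X l} (hl : j < l)
    (h1 : ∂₁ γ = fc hl false z) (h2 : ∂₀ δ = fc hl true z)
include h1 h2

lemma fc_Wt_hi {i : ℕ} (hj : j < i) (h : i < l) (b : Bool) :
    fc h b (O.Wt j γ δ z) = O.Wt j γ δ (fc h b z) := by
  rw [O.Wt_eq hl h1 h2, O.fc_W_hi _ hj, O.W_eq]; rfl

lemma fc_Wt_false : fc hl false (O.Wt j γ δ z) = ∂₀ γ := by
  rw [O.Wt_eq hl h1 h2, O.fc_W_false]

lemma fc_Wt_true : fc hl true (O.Wt j γ δ z) = ∂₁ δ := by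
  rw [O.Wt_eq hl h1 h2, O.fc_W_true]

lemma ap_Wt {Y : C.GlobModel} (g : X ⟶ Y) :
    ap g (O.Wt j γ δ z) = O.Wt j (ap g γ) (ap g δ) (ap g z) := by
  rw [O.Wt_eq hl h1 h2, O.ap_W, O.W_eq]; rfl

lemma Wt_rel {z' : Cl X l} (h : Rel z z') : Rel (O.Wt j γ δ z) (O.Wt j γ δ z') := by
  obtain ⟨w, rfl, rfl⟩ := h
  have hl' : j < l + 1 := by omega
  rw [fc_fc] at h1 h2
  exact ⟨O.Wt j γ δ w, O.fc_Wt_hi hl' h1 h2 hl _ _, O.fc_Wt_hi hl' h1 h2 hl _ _⟩

end

/-- side data of cylinders below dimension `r`, relative to dimension `k` -/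
abbrev Side (X : C.GlobModel) (k r : ℕ) := ∀ j, k ≤ j → j < r → Bool → Cl X (j + 1)

/-- restriction of side data -/
abbrev Side.res {X : C.GlobModel} {k r : ℕ} (s : Side X k r) {r' : ℕ} (h : r' ≤ r) : Side X k r' :=
  fun j hk hj => s j hk (hj.trans_le h)

/-- transport -/
noncomputable def Tr {X : C.GlobModel} (k : ℕ) :
    ∀ (r : ℕ) (_ : Side X k r) {l : ℕ}, Cl X l → Cl X l
  | 0, _, _, z => z
  | r + 1, side, _, z =>
    if hk : k ≤ r then
      O.Wt r (O.inv (side r hk (Nat.lt_add_one r) false)) (side r hk (Nat.lt_add_one r) true)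
        (Tr k r (side.res (Nat.le_succ r)) z)
    else z

lemma Tr_le {X : C.GlobModel} {k r : ℕ} (h : r ≤ k) (side : Side X k r) {l : ℕ} (z : Cl X l) :
    O.Tr k r side z = z := by
  cases r with
  | zero => rfl
  | succ r => rw [Tr, dif_neg (by omega)]

lemma Tr_succ {X : C.GlobModel} {k r : ℕ} (hk : k ≤ r) (side : Side X k (r + 1)) {l : ℕ}
    (z : Cl X l) : O.Tr k (r + 1) side z =
      O.Wt r (O.inv (side r hk (Nat.lt_add_one r) false)) (side r hk (Nat.lt_add_one r) true)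
        (O.Tr k r (side.res (Nat.le_succ r)) z) := by
  rw [Tr, dif_pos hk]

/-- validity of side data over a boundary family -/
def Valid {X : C.GlobModel} (k r : ℕ) (side : Side X k r) (s : ∀ j, j < r → Bool → Cl X j) : Prop :=
  IsSph s ∧ ∀ j hk hj b, ∂₀ (side j hk hj b) = O.Tr k j (side.res hj.le) (s j hj b)

/-- the top boundary family -/
noncomputable def topS {X : C.GlobModel} (k r : ℕ) (side : Side X k r)
    (s : ∀ j, j < r → Bool → Cl X j) (j : ℕ) (hj : j < r) (b : Bool) : Cl X j :=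
  if hk : k ≤ j then ∂₁ (side j hk hj b) else s j hj b

/-- a cell lies over a boundary family -/
def Ov {X : C.GlobModel} {r l : ℕ} (hr : r ≤ l) (z : Cl X l) (s : ∀ j, j < r → Bool → Cl X j) :
    Prop := ∀ j hj b, fc (lt_of_lt_of_le hj hr) b z = s j hj b

variable {O}

lemma Valid.res {X : C.GlobModel} {k r : ℕ} {side : Side X k r} {s : ∀ j, j < r → Bool → Cl X j}
    (h : O.Valid k r side s) {r' : ℕ} (hr : r' ≤ r) :
    O.Valid k r' (side.res hr) (fun j hj => s j (hj.trans_le hr)) :=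
  ⟨fun i j h' hi b b' => h.1 i j h' (hi.trans_le hr) b b', fun j hk hj b => h.2 j hk _ b⟩

lemma Ov.res {X : C.GlobModel} {r l : ℕ} {hr : r ≤ l} {z : Cl X l} {s : ∀ j, j < r → Bool → Cl X j}
    (h : Ov hr z s) {r' : ℕ} (hr' : r' ≤ r) :
    Ov (hr'.trans hr) z (fun j hj => s j (hj.trans_le hr')) := fun j hj b => h j _ b

lemma Ov.face {X : C.GlobModel} {r l : ℕ} {hr : r ≤ l} {z : Cl X l}
    {s : ∀ j, j < r → Bool → Cl X j} (h : Ov hr z s) {i : ℕ} (hi : r ≤ i) (hl : i < l) (b : Bool) :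
    Ov hi (fc hl b z) s := fun j hj b' => by rw [fc_fc]; exact h j hj b'

lemma Ov.of_face {X : C.GlobModel} {r l i : ℕ} {hi : r ≤ i} {z : Cl X l} {hl : i < l} {b : Bool}
    {s : ∀ j, j < r → Bool → Cl X j} (h : Ov hi (fc hl b z) s) :
    Ov (hi.trans hl.le) z s := fun j hj b' => by rw [← h j hj b', fc_fc]

lemma Ov.par {X : C.GlobModel} {r l : ℕ} {hr : r ≤ l} {z z' : Cl X l}
    {s : ∀ j, j < r → Bool → Cl X j} (h : Ov hr z s) (hp : Par z z') : Ov hr z' s :=
  fun j hj b => (hp j _ b).symm.trans (h j hj b)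

lemma IsSph.ov {X : C.GlobModel} {r : ℕ} {s : ∀ j, j < r → Bool → Cl X j} (h : IsSph s)
    {i : ℕ} (hi : i < r) (b : Bool) :
    Ov le_rfl (s i hi b) (fun j hj => s j (hj.trans_le hi.le)) := fun j hj b' => h i j hj hi b' b

lemma Tr_spec {X : C.GlobModel} (k : ℕ) : ∀ (r : ℕ) (side : Side X k r)
    (s : ∀ j, j < r → Bool → Cl X j), O.Valid k r side s → ∀ l (hr : r ≤ l) (z : Cl X l),
    Ov hr z s → Ov hr (O.Tr k r side z) (topS k r side s) ∧
      ∀ i (_ : r ≤ i) (h : i < l) b, fc h b (O.Tr k r side z) = O.Tr k r side (fc h b z) := by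
  intro r
  induction r with
  | zero => exact fun side s _ l hr z _ => ⟨fun j hj => absurd hj (Nat.not_lt_zero j),
      fun _ _ _ _ => rfl⟩
  | succ r ih =>
    intro side s hv l hr z hz
    by_cases hk : k ≤ r
    · have hv' := hv.res (Nat.le_succ r)
      have hlt := Nat.lt_add_one r
      have key : ∀ l (hr : r + 1 ≤ l) (z : Cl X l), Ov hr z s →
          ∂₁ (O.inv (side r hk hlt false)) =
            fc (lt_of_lt_of_le hlt hr) false (O.Tr k r (side.res (Nat.le_succ r)) z) ∧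
          ∂₀ (side r hk hlt true) =
            fc (lt_of_lt_of_le hlt hr) true (O.Tr k r (side.res (Nat.le_succ r)) z) := by
        intro l hr z hz
        have := (ih _ _ hv' l _ z (hz.res (Nat.le_succ r))).2 r le_rfl (lt_of_lt_of_le hlt hr)
        rw [this, this, O.tgt_inv, hv.2, hv.2, hz r hlt, hz r hlt]
        exact ⟨rfl, rfl⟩
      obtain ⟨c1, c2⟩ := key l hr z hz
      constructor
      · intro j hj b
        rw [O.Tr_succ hk]
        rcases Nat.lt_succ_iff_lt_or_eq.1 hj with h' | rfl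
        · rw [← fc_fc h' (lt_of_lt_of_le hlt hr) b false, O.fc_Wt_false _ c1 c2, O.src_inv,
            ← (par_src_tgt _) j h' b, hv.2]
          exact (ih _ _ hv' r le_rfl _ (IsSph.ov hv.1 hlt false)).1 j h' b
        · rw [topS, dif_pos hk]
          cases b
          · rw [O.fc_Wt_false _ c1 c2, O.src_inv]
          · rw [O.fc_Wt_true _ c1 c2]
      · intro i hi h b
        rw [O.Tr_succ hk, O.Tr_succ hk, O.fc_Wt_hi _ c1 c2 hi,
          (ih _ _ hv' l _ z (hz.res (Nat.le_succ r))).2 i (by omega) h]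
    · constructor
      · intro j hj b
        rw [O.Tr_le (by omega), topS, dif_neg (by omega)]
        exact hz j hj b
      · intro i hi h b
        rw [O.Tr_le (by omega), O.Tr_le (by omega)]

section
variable {X : C.GlobModel} {k r : ℕ}

lemma Valid.ov_Tr {side : Side X k r} {s : ∀ j, j < r → Bool → Cl X j} (hv : O.Valid k r side s)
    {l : ℕ} {hr : r ≤ l} {z : Cl X l} (hz : Ov hr z s) :
    Ov hr (O.Tr k r side z) (topS k r side s) := (Tr_spec k r side s hv l hr z hz).1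

lemma Valid.fc_Tr {side : Side X k r} {s : ∀ j, j < r → Bool → Cl X j} (hv : O.Valid k r side s)
    {l : ℕ} {hr : r ≤ l} {z : Cl X l} (hz : Ov hr z s) {i : ℕ} (hi : r ≤ i) (h : i < l) (b : Bool) :
    fc h b (O.Tr k r side z) = O.Tr k r side (fc h b z) :=
  (Tr_spec k r side s hv l hr z hz).2 i hi h b

lemma Valid.comp {side : Side X k (r + 1)} {s : ∀ j, j < r + 1 → Bool → Cl X j}
    (hv : O.Valid k (r + 1) side s) (hk : k ≤ r) {l : ℕ} {hr : r + 1 ≤ l} {z : Cl X l}
    (hz : Ov hr z s) :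
    ∂₁ (O.inv (side r hk (Nat.lt_add_one r) false)) =
      fc (lt_of_lt_of_le (Nat.lt_add_one r) hr) false (O.Tr k r (side.res (Nat.le_succ r)) z) ∧
    ∂₀ (side r hk (Nat.lt_add_one r) true) =
      fc (lt_of_lt_of_le (Nat.lt_add_one r) hr) true (O.Tr k r (side.res (Nat.le_succ r)) z) := by
  have := (hv.res (Nat.le_succ r)).fc_Tr (hz.res (Nat.le_succ r)) le_rfl
    (lt_of_lt_of_le (Nat.lt_add_one r) hr)
  rw [this, this, O.tgt_inv, hv.2, hv.2, hz r (Nat.lt_add_one r), hz r (Nat.lt_add_one r)]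
  exact ⟨rfl, rfl⟩

lemma Valid.isSph_topS {side : Side X k r} {s : ∀ j, j < r → Bool → Cl X j}
    (hv : O.Valid k r side s) : IsSph (topS k r side s) := by
  intro i j h hi b b'
  by_cases hk : k ≤ i
  · rw [topS, dif_pos hk, ← (par_src_tgt _) j h b, hv.2]
    exact (hv.res hi.le).ov_Tr (IsSph.ov hv.1 hi b') j h b
  · rw [topS, dif_neg hk, topS, dif_neg (by omega), hv.1]

lemma Valid.Tr_rel {side : Side X k r} {s : ∀ j, j < r → Bool → Cl X j}
    (hv : O.Valid k r side s) {l : ℕ} {hr : r ≤ l} {z z' : Cl X l} (hz : Ov hr z s)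
    (h : Rel z z') : Rel (O.Tr k r side z) (O.Tr k r side z') := by
  obtain ⟨w, rfl, rfl⟩ := h
  exact ⟨O.Tr k r side w, hv.fc_Tr hz.of_face hr _ _, hv.fc_Tr hz.of_face hr _ _⟩

lemma Valid.Tr_par {side : Side X k r} {s : ∀ j, j < r → Bool → Cl X j}
    (hv : O.Valid k r side s) {l : ℕ} {hr : r ≤ l} {z z' : Cl X l} (hz : Ov hr z s)
    (h : Par z z') : Par (O.Tr k r side z) (O.Tr k r side z') := by
  intro i hi b
  by_cases hri : r ≤ i
  · rw [hv.fc_Tr hz hri, hv.fc_Tr (hz.par h) hri, h]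
  · exact (hv.ov_Tr hz i (by omega) b).trans (hv.ov_Tr (hz.par h) i (by omega) b).symm

end

lemma ap_Tr {X Y : C.GlobModel} (g : X ⟶ Y) (k : ℕ) : ∀ (r : ℕ) (side : Side X k r)
    (s : ∀ j, j < r → Bool → Cl X j), O.Valid k r side s → ∀ l (hr : r ≤ l) (z : Cl X l),
    Ov hr z s → ap g (O.Tr k r side z) =
      O.Tr k r (fun j hk hj b => ap g (side j hk hj b)) (ap g z) := by
  intro r
  induction r with
  | zero => exact fun _ _ _ _ _ _ _ => rfl
  | succ r ih =>
    intro side s hv l hr z hz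
    by_cases hk : k ≤ r
    · obtain ⟨c1, c2⟩ := hv.comp hk hz
      rw [O.Tr_succ hk, O.Tr_succ hk, O.ap_Wt _ c1 c2, O.ap_inv,
        ih _ _ (hv.res (Nat.le_succ r)) l _ z (hz.res (Nat.le_succ r))]
    · rw [O.Tr_le (by omega), O.Tr_le (by omega)]

variable (O)

/-- natural cylinders between two natural globular operations on triples -/
lemma tri_cyl (hC : C.IsCoheratorTheory) (j : ℕ)
    (f g : ∀ m (hm : j < m) (X : C.GlobModel), Tri X j m hm → Cl X m)
    (hf : ∀ m hm, TriNat (f m hm)) (hg : ∀ m hm, TriNat (g m hm))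
    (ff : ∀ m hm X t i (hj : j < i) (h : i < m) b,
      fc h b (f m hm X t) = f i hj X (t.face hj h b))
    (gf : ∀ m hm X t i (hj : j < i) (h : i < m) b,
      fc h b (g m hm X t) = g i hj X (t.face hj h b))
    (low : ∀ m hm X t b, fc hm b (f m hm X t) = fc hm b (g m hm X t)) :
    ∃ h : ∀ m (hm : j < m) (X : C.GlobModel), Tri X j m hm → Cl X (m + 1), ∀ m hm X t,
      ∂₀ (h m hm X t) = O.Tr (j + 1) m (fun i hk hi b => h i hk X (t.face hk hi b)) (f m hm X t) ∧
      ∂₁ (h m hm X t) = g m hm X t := by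
  obtain ⟨h, hh⟩ := exists_family
    (α := fun m => ∀ (hm : j < m) (X : C.GlobModel), Tri X j m hm → Cl X (m + 1))
    (fun m F a => ∀ hm, TriNat (a hm) ∧ ∀ X t,
      ∂₀ (a hm X t) = O.Tr (j + 1) m (fun i hk hi b => F i hi hk X (t.face hk hi b)) (f m hm X t) ∧
      ∂₁ (a hm X t) = g m hm X t) (by
    intro m F hF
    by_cases hm : j < m
    swap
    · exact ⟨fun h => absurd h hm, fun h => absurd h hm⟩
    have hv : ∀ X (t : Tri X j m hm), O.Valid (j + 1) m
        (fun i hk hi b => F i hi hk X (t.face hk hi b)) (fun i hi b => fc hi b (f m hm X t)) := by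
      intro X t
      refine ⟨isSph_fc _, fun i hk hi b => ?_⟩
      beta_reduce
      rw [((hF i hi hk).2 X _).1, ff _ _ _ _ _ hk]
      simp only [Tri.face_face]
    have ho : ∀ X (t : Tri X j m hm),
        Ov le_rfl (f m hm X t) (fun i hi b => fc hi b (f m hm X t)) := fun _ _ _ _ _ => rfl
    obtain ⟨a, ha1, ha2⟩ := tri_fill hC (hm := hm) (Nat.le_succ m)
      (fun X t => O.Tr (j + 1) m (fun i hk hi b => F i hi hk X (t.face hk hi b)) (f m hm X t))
      (g m hm) (by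
        intro X Y φ t
        simp only
        rw [ap_Tr φ _ _ _ _ (hv X t) _ _ _ (ho X t), hf]
        congr 1
        funext i hk hi b
        rw [(hF i hi hk).1, Tri.map_face]) (hg m hm) (by
        intro X t i hi b
        refine ((hv X t).ov_Tr (ho X t) i hi b).trans ?_
        unfold topS
        split_ifs with hk
        · rw [((hF i hi hk).2 X _).2, gf _ _ _ _ _ hk]
        · beta_reduce
          rcases Nat.lt_succ_iff_lt_or_eq.1 (not_le.1 hk) with h' | rfl
          · rw [← fc_fc h' hm b false, low, fc_fc]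
          · exact low _ _ _ _ _)
    exact ⟨fun _ => a, fun _ => ⟨ha1, ha2⟩⟩)
  exact ⟨h, fun m hm => (hh m hm).2⟩

/-- the division lemma (injectivity half) -/
lemma Wt_inj (hC : C.IsCoheratorTheory) {X : C.GlobModel} {j : ℕ} {γ δ : Cl X (j + 1)} {l : ℕ}
    {z z' : Cl X l} (hl : j < l) (h1 : ∂₁ γ = fc hl false z) (h2 : ∂₀ δ = fc hl true z)
    (hp : Par z z') (h : Rel (O.Wt j γ δ z) (O.Wt j γ δ z')) : Rel z z' := by
  have c1 : ∀ {m} {hm : j < m} {X : C.GlobModel} (t : Tri X j m hm),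
      ∂₁ (O.inv t.γ) = fc hm false (O.W t) := fun t => by rw [O.fc_W_false, O.tgt_inv]
  have c2 : ∀ {m} {hm : j < m} {X : C.GlobModel} (t : Tri X j m hm),
      ∂₀ (O.inv t.δ) = fc hm true (O.W t) := fun t => by rw [O.fc_W_true, O.src_inv]
  let f : ∀ m (hm : j < m) (X : C.GlobModel), Tri X j m hm → Cl X m :=
    fun m hm X t => O.Wt j (O.inv t.γ) (O.inv t.δ) (O.W t)
  have ff : ∀ m hm X t i (hj : j < i) (h : i < m) b,
      fc h b (f m hm X t) = f i hj X (t.face hj h b) := by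
    intro m hm X t i hj h b
    simp only [f]
    rw [O.fc_Wt_hi hm (c1 t) (c2 t) hj, O.fc_W_hi _ hj]
    rfl
  obtain ⟨H, hH⟩ := O.tri_cyl hC j f (fun m hm X t => t.z)
    (fun m hm X Y g t => by
      simp only [f]
      rw [O.ap_Wt hm (c1 t) (c2 t), O.ap_W, O.ap_inv, O.ap_inv]; rfl)
    (fun m hm X Y g t => rfl) ff (fun _ _ _ _ _ _ _ _ => rfl) (by
      intro m hm X t b
      simp only [f]
      cases b
      · rw [O.fc_Wt_false hm (c1 t) (c2 t), O.src_inv, t.h1]
      · rw [O.fc_Wt_true hm (c1 t) (c2 t), O.tgt_inv, t.h2])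
  let t : Tri X j l hl := ⟨γ, z, δ, h1, h2⟩
  let t' : Tri X j l hl := ⟨γ, z', δ, h1.trans (hp _ _ _), h2.trans (hp _ _ _)⟩
  have hside : (fun i (hk : j + 1 ≤ i) (hi : i < l) b => H i hk X (t'.face hk hi b)) =
      (fun i (hk : j + 1 ≤ i) (hi : i < l) b => H i hk X (t.face hk hi b)) := by
    funext i hk hi b
    congr 1
    ext
    · rfl
    · exact (hp i hi b).symm
    · rfl
  have hv : O.Valid (j + 1) l (fun i hk hi b => H i hk X (t.face hk hi b))
      (fun i hi b => fc hi b (f l hl X t)) := by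
    refine ⟨isSph_fc _, fun i hk hi b => ?_⟩
    beta_reduce
    rw [(hH i hk X _).1, ff _ _ _ _ _ hk]
    simp only [Tri.face_face]
  have r1 : Rel (f l hl X t) (f l hl X t') := by
    refine O.Wt_rel hl (c1 t) (c2 t) ?_
    rw [O.W_eq, O.W_eq]
    exact h
  have r2 := hv.Tr_rel (hr := le_rfl) (fun _ _ _ => rfl) r1
  have r3 : Rel _ z := ⟨_, hH l hl X t⟩
  have r4 : Rel _ z' := ⟨_, hH l hl X t'⟩
  rw [hside] at r4
  exact (r3.symm hC).trans hC (r2.trans hC r4)

variable {O}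

lemma Tr_inj (hC : C.IsCoheratorTheory) {X : C.GlobModel} (k : ℕ) : ∀ (r : ℕ) (side : Side X k r)
    (s : ∀ j, j < r → Bool → Cl X j), O.Valid k r side s → ∀ l (hr : r ≤ l) (z z' : Cl X l),
    Ov hr z s → Par z z' → Rel (O.Tr k r side z) (O.Tr k r side z') → Rel z z' := by
  intro r
  induction r with
  | zero => exact fun _ _ _ _ _ _ _ _ _ h => h
  | succ r ih =>
    intro side s hv l hr z z' hz hp h
    by_cases hk : k ≤ r
    · obtain ⟨c1, c2⟩ := hv.comp hk hz
      rw [O.Tr_succ hk, O.Tr_succ hk] at h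
      exact ih _ _ (hv.res (Nat.le_succ r)) l _ z z' (hz.res (Nat.le_succ r)) hp
        (O.Wt_inj hC _ c1 c2 ((hv.res (Nat.le_succ r)).Tr_par (hz.res (Nat.le_succ r)) hp) h)
    · rwa [O.Tr_le (by omega), O.Tr_le (by omega)] at h

end Ops

end Crest.Agent.R248
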