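import Crest.Agent.R248.Section

/-! Whisker extensions of models: existence; trivial fibrations and cofibrant models. -/

set_option autoImplicit false
open CategoryTheory CategoryTheory.Limits Opposite Crest.GeometryTopology.Coherator
universe u

namespace Crest.Agent.R248

open GlobTheory Shape

variable {C : GlobTheory.{u}}

/-- `Y` is obtained from `X` by freely adding `(k+1)`-cells `p t` with sources `a t`. -/
structure IsWh (k : ℕ) {X Y : C.GlobModel} (i : X ⟶ Y) {I : Type} (a : I → Cl X k)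
    (p : I → Cl Y (k + 1)) : Prop where
  src_p : ∀ t, ∂₀ (p t) = ap i (a t)
  ex : ∀ (Z : C.GlobModel) (g : X ⟶ Z) (w : I → Cl Z (k + 1)), (∀ t, ∂₀ (w t) = ap g (a t)) →
    ∃ h : Y ⟶ Z, i ≫ h = g ∧ ∀ t, ap h (p t) = w t
  ext : ∀ (Z : C.GlobModel) (h h' : Y ⟶ Z), i ≫ h = i ≫ h' → (∀ t, ap h (p t) = ap h' (p t)) →
    h = h'

/-- index data of a gluing square -/
structure GlueIdx : Type where
  S : Shape
  b : ℕ
  h : ℕ
  hb : b < S.last
  hh : b < h

/-- presheaves on the theory -/
abbrev Psh (C : GlobTheory.{u}) := C.Obᵒᵖ ⥤ Type u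

lemma yw (d : GlueIdx) :
    yoneda.map (C.incl.map (d.S.hinge d.hb)) ≫
        yoneda.map (C.incl.map (d.S.inLeft d.b d.h d.hb d.hh)) =
      yoneda.map (C.incl.map (faceMap d.hh false)) ≫
        yoneda.map (C.incl.map (d.S.inRight d.b d.h d.hb d.hh)) := by
  rw [← Functor.map_comp, ← Functor.map_comp, ← Functor.map_comp, ← Functor.map_comp, glue_w]

/-- the comparison maps -/
noncomputable def cmp (C : GlobTheory.{u}) (d : GlueIdx) :
    pushout (yoneda.map (C.incl.map (d.S.hinge d.hb)))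
      (yoneda.map (C.incl.map (faceMap d.hh false))) ⟶
      (yoneda.obj (C.incl.obj (d.S.glue d.b d.h d.hb d.hh)) : Psh C) :=
  pushout.desc _ _ (yw d)

/-- the class of comparison maps -/
noncomputable def Wc (C : GlobTheory.{u}) : MorphismProperty (Psh C) :=
  MorphismProperty.ofHoms (cmp C)

instance : MorphismProperty.IsSmall.{u} (Wc C) := by
  unfold Wc; exact MorphismProperty.isSmall_ofHoms.{u} (cmp C)

attribute [local instance] Cardinal.fact_isRegular_aleph0

instance yoneda_presentable (S : C.Ob) :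
    IsCardinalPresentable (yoneda.obj S : Psh C) Cardinal.aleph0.{u} where
  preservesColimitOfShape J _ _ := by
    let e : (coyoneda.obj (op (yoneda.obj S : Psh C))) ≅ (evaluation _ _).obj (op S) :=
      NatIso.ofComponents (fun P ↦ Equiv.toIso yonedaEquiv)
    exact preservesColimitsOfShape_of_natIso e.symm

lemma Wc_presentable ⦃X Y : Psh C⦄ (f : X ⟶ Y) (hf : Wc C f) :
    IsCardinalPresentable X Cardinal.aleph0.{u} ∧ IsCardinalPresentable Y Cardinal.aleph0.{u} := by
  obtain ⟨d⟩ := hf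
  refine ⟨?_, inferInstance⟩
  have : ∀ k, IsCardinalPresentable ((span (yoneda.map (C.incl.map (d.S.hinge d.hb)))
      (yoneda.map (C.incl.map (faceMap d.hh false)))).obj k : Psh C) Cardinal.aleph0.{u} := by
    rintro (_ | _ | _) <;> exact yoneda_presentable _
  refine isCardinalPresentable_of_isColimit _ (colimit.isColimit (span _ _)) Cardinal.aleph0.{u} ?_
  exact hasCardinalLT_of_finite _ _ le_rfl

lemma isLocal_of_model (M : C.GlobModel) : (Wc C).isLocal M.functor := by
  rintro A B f ⟨d⟩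
  constructor
  · intro g g' hg
    apply yonedaEquiv.injective
    apply V_glue_ext M d.S d.b d.h d.hb d.hh
    · have := congrArg (fun f => yonedaEquiv (pushout.inl _ _ ≫ f)) hg
      simp only [cmp, pushout.inl_desc_assoc] at this
      rw [← yonedaEquiv_naturality, ← yonedaEquiv_naturality] at this
      exact this
    · have := congrArg (fun f => yonedaEquiv (pushout.inr _ _ ≫ f)) hg
      simp only [cmp, pushout.inr_desc_assoc] at this
      rw [← yonedaEquiv_naturality, ← yonedaEquiv_naturality] at this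
      exact this
  · intro g
    obtain ⟨y, hy1, hy2⟩ := V_glue_exists M d.S d.b d.h d.hb d.hh
      (yonedaEquiv (pushout.inl _ _ ≫ g)) (yonedaEquiv (pushout.inr _ _ ≫ g)) (by
        have := congrArg (fun f => yonedaEquiv (f ≫ g)) (pushout.condition
          (f := yoneda.map (C.incl.map (d.S.hinge d.hb)))
          (g := yoneda.map (C.incl.map (faceMap d.hh false))))
        simp only [Category.assoc] at this
        rw [← yonedaEquiv_naturality, ← yonedaEquiv_naturality] at this
        exact this)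
    refine ⟨yonedaEquiv.symm y, ?_⟩
    apply pushout.hom_ext
    · simp only [cmp, pushout.inl_desc_assoc]
      apply yonedaEquiv.injective
      rw [← yonedaEquiv_naturality, Equiv.apply_symm_apply]
      exact hy1
    · simp only [cmp, pushout.inr_desc_assoc]
      apply yonedaEquiv.injective
      rw [← yonedaEquiv_naturality, Equiv.apply_symm_apply]
      exact hy2

/-- a local presheaf is a model -/
noncomputable def modelOfLocal (P : Psh C) (hP : (Wc C).isLocal P) : C.GlobModel where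
  functor := P
  sums S b h hb hh := by
    let d : GlueIdx := ⟨S, b, h, hb, hh⟩
    have hd := hP (cmp C d) (MorphismProperty.ofHoms.mk d)
    rw [Types.isPullback_iff]
    refine ⟨?_, ?_, ?_⟩
    · rw [← P.map_comp, ← P.map_comp, ← op_comp, ← op_comp, ← Functor.map_comp,
        ← Functor.map_comp, glue_w]
    · rintro x y ⟨h1, h2⟩
      apply yonedaEquiv.symm.injective
      apply hd.1
      apply pushout.hom_ext
      · simp only [cmp, pushout.inl_desc_assoc]
        apply yonedaEquiv.injective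
        rw [← yonedaEquiv_naturality, ← yonedaEquiv_naturality, Equiv.apply_symm_apply,
          Equiv.apply_symm_apply]
        exact h1
      · simp only [cmp, pushout.inr_desc_assoc]
        apply yonedaEquiv.injective
        rw [← yonedaEquiv_naturality, ← yonedaEquiv_naturality, Equiv.apply_symm_apply,
          Equiv.apply_symm_apply]
        exact h2
    · intro x y hxy
      obtain ⟨g, hg⟩ := hd.2 (pushout.desc (yonedaEquiv.symm x) (yonedaEquiv.symm y) (by
        apply yonedaEquiv.injective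
        rw [← yonedaEquiv_naturality, ← yonedaEquiv_naturality, Equiv.apply_symm_apply,
          Equiv.apply_symm_apply]
        exact hxy))
      refine ⟨yonedaEquiv g, ?_, ?_⟩
      · have := congrArg (fun f => yonedaEquiv (pushout.inl _ _ ≫ f)) hg
        simp only [cmp, pushout.inl_desc_assoc, pushout.inl_desc] at this
        rw [← yonedaEquiv_naturality, Equiv.apply_symm_apply] at this
        exact this
      · have := congrArg (fun f => yonedaEquiv (pushout.inr _ _ ≫ f)) hg
        simp only [cmp, pushout.inr_desc_assoc, pushout.inr_desc] at this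
        rw [← yonedaEquiv_naturality, Equiv.apply_symm_apply] at this
        exact this

theorem exists_reflection (P : Psh C) : ∃ (Y : C.GlobModel) (ρ : P ⟶ Y.functor),
    ∀ Z : C.GlobModel, Function.Bijective (fun g : Y.functor ⟶ Z.functor => ρ ≫ g) := by
  have := MorphismProperty.isRightAdjoint_ι_isLocal (Wc C) Cardinal.aleph0.{u} Wc_presentable
  let adj := Adjunction.ofIsRightAdjoint (Wc C).isLocal.ι
  let Y := (Wc C).isLocal.ι.leftAdjoint.obj P
  refine ⟨modelOfLocal Y.obj Y.property, adj.unit.app P, fun Z => ?_⟩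
  let Z' : (Wc C).isLocal.FullSubcategory := ⟨Z.functor, isLocal_of_model Z⟩
  have h1 := (adj.homEquiv P Z').bijective
  have h2 := ((Wc C).isLocal.fullyFaithfulι.homEquiv (X := Y) (Y := Z')).symm.bijective
  have e : (fun g : Y.obj ⟶ Z.functor => adj.unit.app P ≫ g) =
      (adj.homEquiv P Z') ∘ ((Wc C).isLocal.fullyFaithfulι.homEquiv (X := Y) (Y := Z')).symm := by
    funext g
    exact ((adj.homEquiv_unit P Z' _).trans (congrArg (fun x => adj.unit.app P ≫ x)
      ((Wc C).isLocal.fullyFaithfulι.map_preimage (X := Y) (Y := Z') g))).symm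
  exact e ▸ h1.comp h2

theorem exists_wh (k : ℕ) (X : C.GlobModel) {I : Type} (a : I → Cl X k) :
    ∃ (Y : C.GlobModel) (i : X ⟶ Y) (p : I → Cl Y (k + 1)), IsWh k i a p := by
  let Dk : Psh C := yoneda.obj (⟨globe k⟩ : C.Ob)
  let Dk1 : Psh C := yoneda.obj (⟨globe (k + 1)⟩ : C.Ob)
  let s : Dk ⟶ Dk1 := yoneda.map (C.incl.map (σ k))
  let l : (∐ fun _ : I => Dk) ⟶ X.functor := Sigma.desc fun t => yonedaEquiv.symm (a t)
  let m : (∐ fun _ : I => Dk) ⟶ (∐ fun _ : I => Dk1) := Limits.Sigma.map fun _ => s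
  obtain ⟨Y, ρ, hρ⟩ := exists_reflection (pushout l m)
  have hsrc : ∀ (Z : C.GlobModel) (f : Dk1 ⟶ Z.functor),
      fc (X := Z) (Nat.lt_add_one k) false (yonedaEquiv f) = yonedaEquiv (s ≫ f) := fun Z f =>
    yonedaEquiv_naturality f _
  refine ⟨Y, (pushout.inl l m ≫ ρ : X.functor ⟶ Y.functor),
    fun t => yonedaEquiv (Sigma.ι (fun _ : I => Dk1) t ≫ pushout.inr l m ≫ ρ), ?_, ?_, ?_⟩
  · intro t
    rw [hsrc]
    have : s ≫ Sigma.ι (fun _ : I => Dk1) t ≫ pushout.inr l m ≫ ρ =
        yonedaEquiv.symm (a t) ≫ pushout.inl l m ≫ ρ := by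
      rw [← Sigma.ι_map_assoc (p := fun _ => s), ← pushout.condition_assoc]
      simp [l, m]
    rw [this, yonedaEquiv_comp, Equiv.apply_symm_apply]
    rfl
  · intro Z g w hw
    obtain ⟨h, hh⟩ := (hρ Z).2 (pushout.desc g (Sigma.desc fun t => yonedaEquiv.symm (w t)) (by
      apply Sigma.hom_ext
      intro t
      simp only [l, m, Sigma.ι_desc_assoc, Sigma.ι_map_assoc, Sigma.ι_desc]
      apply yonedaEquiv.injective
      rw [← hsrc, Equiv.apply_symm_apply, hw, yonedaEquiv_comp, Equiv.apply_symm_apply]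
      rfl))
    refine ⟨h, ?_, fun t => ?_⟩
    · change (pushout.inl l m ≫ ρ) ≫ (h : Y.functor ⟶ Z.functor) = (g : X.functor ⟶ Z.functor)
      simp only at hh
      rw [Category.assoc, hh, pushout.inl_desc]
    · change yonedaEquiv ((Sigma.ι (fun _ : I => Dk1) t ≫ pushout.inr l m ≫ ρ) ≫
        (h : Y.functor ⟶ Z.functor)) = _
      simp only at hh
      simp only [Category.assoc, hh, pushout.inr_desc, Sigma.ι_desc, Equiv.apply_symm_apply]
  · intro Z h h' h1 h2
    apply (hρ Z).1
    apply pushout.hom_ext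
    · exact h1
    · apply Sigma.hom_ext
      intro t
      apply yonedaEquiv.injective
      exact h2 t

/-! ### Trivial fibrations and cofibrant models -/

/-- a compatible boundary family -/
def IsSph {X : C.GlobModel} {m : ℕ} (s : ∀ i, i < m → Bool → Cl X i) : Prop :=
  ∀ i j (h : j < i) (hi : i < m) b b', fc h b (s i hi b') = s j (h.trans hi) b

lemma isSph_fc {X : C.GlobModel} {m : ℕ} (x : Cl X m) : IsSph (fun _ h b => fc h b x) :=
  fun _ _ _ _ _ _ => by simp

/-- the boundary family of a parallel pair -/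
noncomputable def sphOf {X : C.GlobModel} {k : ℕ} (x y : Cl X k) (i : ℕ) (h : i < k + 1)
    (b : Bool) : Cl X i :=
  if hi : i = k then hi ▸ (cond b y x) else fc (by omega) b x

lemma sphOf_top {X : C.GlobModel} {k : ℕ} (x y : Cl X k) (h : k < k + 1) (b : Bool) :
    sphOf x y k h b = cond b y x := by simp [sphOf]

lemma sphOf_lt {X : C.GlobModel} {k : ℕ} (x y : Cl X k) {i : ℕ} (hi : i < k) (h : i < k + 1)
    (b : Bool) : sphOf x y i h b = fc hi b x := by simp [sphOf, hi.ne]

lemma isSph_sphOf {X : C.GlobModel} {k : ℕ} {x y : Cl X k} (hxy : Par x y) :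
    IsSph (sphOf x y) := by
  intro i j h hi b b'
  rcases Nat.lt_succ_iff_lt_or_eq.1 hi with h' | rfl
  · rw [sphOf_lt x y h', sphOf_lt x y (h.trans h'), fc_fc]
  · rw [sphOf_top, sphOf_lt x y h]
    cases b'
    · rfl
    · exact (hxy j h b).symm

lemma fc_eq_sphOf {X Y : C.GlobModel} (g : X ⟶ Y) {k : ℕ} {x y : Cl X k} {z : Cl Y (k + 1)}
    (h1 : ∂₀ z = ap g x) (h2 : ∂₁ z = ap g y) (i : ℕ) (h : i < k + 1) (b : Bool) :
    fc h b z = ap g (sphOf x y i h b) := by
  rcases Nat.lt_succ_iff_lt_or_eq.1 h with h' | rfl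
  · rw [sphOf_lt x y h', ap_fc, ← h1, fc_fc]
  · rw [sphOf_top]
    cases b
    · exact h1
    · exact h2

/-- trivial fibrations -/
def TrivFib {P Z : C.GlobModel} (π : P ⟶ Z) : Prop :=
  ∀ m (s : ∀ i, i < m → Bool → Cl P i), IsSph s → ∀ z : Cl Z m,
    (∀ i h b, fc h b z = ap π (s i h b)) → ∃ q : Cl P m, (∀ i h b, fc h b q = s i h b) ∧ ap π q = z

lemma TrivFib.lift_succ {P Z : C.GlobModel} {π : P ⟶ Z} (hπ : TrivFib π) {k : ℕ} {x y : Cl P k}
    (hxy : Par x y) (z : Cl Z (k + 1)) (h1 : ∂₀ z = ap π x) (h2 : ∂₁ z = ap π y) :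
    ∃ q : Cl P (k + 1), ∂₀ q = x ∧ ∂₁ q = y ∧ ap π q = z := by
  obtain ⟨q, hq1, hq2⟩ := hπ (k + 1) (sphOf x y) (isSph_sphOf hxy) z (fc_eq_sphOf π h1 h2)
  exact ⟨q, (hq1 _ _ _).trans (sphOf_top _ _ _ _), (hq1 _ _ _).trans (sphOf_top _ _ _ _), hq2⟩

lemma TrivFib.lift_par {P Z : C.GlobModel} {π : P ⟶ Z} (hπ : TrivFib π) {k : ℕ} (x : Cl P k)
    (z : Cl Z k) (h : Par z (ap π x)) : ∃ q : Cl P k, Par q x ∧ ap π q = z :=
  hπ k _ (isSph_fc x) z (fun i hi b => by rw [h i hi b, ap_fc])

/-- cofibrant models -/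
def Cof (X : C.GlobModel) : Prop :=
  ∀ (P Z : C.GlobModel) (π : P ⟶ Z), TrivFib π → ∀ g : X ⟶ Z, ∃ l : X ⟶ P, l ≫ π = g

lemma cof_free (S : Shape) : Cof (Fr C S) := by
  intro P Z π hπ g
  obtain ⟨F, hF⟩ := exists_family (α := fun i => Var S i → Cl P i)
    (fun i F a => ∀ v, (∀ j h b, fc h b (a v) = F j h (faceMap h b ≫ v)) ∧
      ap π (a v) = ev Z v (ap g (univ C S))) (by
    intro m F hF
    have : ∀ v : Var S m, ∃ q : Cl P m, (∀ j h b, fc h b q = F j h (faceMap h b ≫ v)) ∧
        ap π q = ev Z v (ap g (univ C S)) := by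
      intro v
      refine hπ m (fun j h b => F j h (faceMap h b ≫ v)) ?_ _ ?_
      · intro i j h hi b b'
        rw [(hF i hi _).1, faceMap_comp'_assoc]
      · intro i h b
        rw [(hF i h _).2, fc_ev]
    choose a ha using this
    exact ⟨a, ha⟩)
  obtain ⟨y, hy⟩ := V_exists P S F (fun i j h b v => (hF i v).1 j h b)
  refine ⟨cls y, fr_hom_ext ?_⟩
  apply V_ext
  intro i v
  rw [ap_comp, ap_cls_univ, ← ap_ev, hy, (hF i v).2]

lemma IsWh.cof {k : ℕ} {X Y : C.GlobModel} {i : X ⟶ Y} {I : Type} {a : I → Cl X k}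
    {p : I → Cl Y (k + 1)} (h : IsWh k i a p) (hX : Cof X) : Cof Y := by
  intro P Z π hπ g
  obtain ⟨l, hl⟩ := hX P Z π hπ (i ≫ g)
  have hla : ∀ t, ap π (ap l (a t)) = ∂₀ (ap g (p t)) := fun t => by
    rw [← ap_comp, hl, ap_comp, ← h.src_p, ap_fc]
  have : ∀ t, ∃ w : Cl P (k + 1), ∂₀ w = ap l (a t) ∧ ap π w = ap g (p t) := by
    intro t
    obtain ⟨q, hq1, hq2⟩ := hπ.lift_par (ap l (a t)) (∂₁ (ap g (p t)))
      (by rw [hla]; exact (par_src_tgt _).symm)
    obtain ⟨w, hw1, -, hw3⟩ := hπ.lift_succ hq1.symm (ap g (p t)) (hla t).symm hq2.symm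
    exact ⟨w, hw1, hw3⟩
  choose w hw1 hw2 using this
  obtain ⟨l', hl1, hl2⟩ := h.ex P l w hw1
  refine ⟨l', h.ext Z _ _ ?_ (fun t => ?_)⟩
  · rw [← Category.assoc, hl1, hl]
  · rw [ap_comp, hl2, hw2]

open GlobModel in
lemma TrivFib.lift_sphere {P Z : C.GlobModel} {π : P ⟶ Z} (hπ : TrivFib π) (n : ℕ)
    (s : P.cells.Sphere n) (z : Z.cells.cell n)
    (h : Z.cells.bdry n z = (cellsMap π).sphere n s) :
    ∃ q : P.cells.cell n, P.cells.bdry n q = s ∧ (cellsMap π).app n q = z := by
  cases n with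
  | zero =>
    obtain ⟨q, -, hq⟩ := hπ 0 (fun i hi => absurd hi (Nat.not_lt_zero i))
      (fun i j _ hi => absurd hi (Nat.not_lt_zero i)) z
      (fun i hi => absurd hi (Nat.not_lt_zero i))
    exact ⟨q, rfl, hq⟩
  | succ n =>
    obtain ⟨⟨x, y⟩, hxy⟩ := s
    have hpar : Par (X := P) (m := n) x y := by
      cases n with
      | zero => intro i hi; omega
      | succ n => exact par_of_succ hxy.1 hxy.2
    have h' := congrArg Subtype.val h
    obtain ⟨q, h1, h2, h3⟩ := hπ.lift_succ hpar z (congrArg Prod.fst h') (congrArg Prod.snd h')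
    exact ⟨q, Subtype.ext (Prod.ext h1 h2), h3⟩

open GlobModel in
lemma sphere_comp {X Y Z : C.GlobModel} (f : X ⟶ Y) (g : Y ⟶ Z) (n : ℕ) (s : X.cells.Sphere n) :
    (cellsMap (f ≫ g)).sphere n s = (cellsMap g).sphere n ((cellsMap f).sphere n s) := by
  cases n <;> rfl

lemma bdry_app {A B : GlobSet.{u}} (f : A.Map B) (n : ℕ) (x : A.cell n) :
    B.bdry n (f.app n x) = f.sphere n (A.bdry n x) := by
  cases n with
  | zero => rfl
  | succ n => exact Subtype.ext (Prod.ext (f.app_src n x).symm (f.app_tgt n x).symm)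

open GlobModel in
lemma hasLift_attaching {X Y P Z : C.GlobModel} {f : X ⟶ Y} (A : IsAttaching f) {π : P ⟶ Z}
    (hπ : TrivFib π) : HasLiftingProperty f π := by
  constructor
  intro a b sq
  have : ∀ k, ∃ q : P.cells.cell (A.dimOf k),
      P.cells.bdry _ q = (cellsMap a).sphere _ (A.sphere k) ∧
        (cellsMap π).app _ q = (cellsMap b).app _ (A.newCell k) := by
    intro k
    apply hπ.lift_sphere
    rw [bdry_app, A.newCell_bdry, ← sphere_comp, ← sphere_comp, sq.w]
  choose q hq1 hq2 using this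
  obtain ⟨l, ⟨hl1, hl2⟩, -⟩ := A.universal P a q hq1
  refine ⟨⟨⟨l, hl1, ?_⟩⟩⟩
  obtain ⟨h, -, hh⟩ := A.universal Z (f ≫ b) (fun k => (cellsMap b).app _ (A.newCell k))
    (fun k => by rw [bdry_app, A.newCell_bdry, ← sphere_comp])
  refine (hh _ ⟨?_, fun k => ?_⟩).trans (hh _ ⟨rfl, fun k => rfl⟩).symm
  · rw [← Category.assoc, hl1, sq.w]
  · rw [← hq2, ← hl2]; rfl

lemma cof_cellular {X : C.GlobModel} (hX : X.IsCellularModel) : Cof X := by
  obtain ⟨c⟩ := hX
  intro P Z π hπ g
  let _ := c.linOrd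
  let _ := c.bot
  let _ := c.succ
  have _ := c.wf
  have h1 : HasLiftingProperty (c.chain.incl.app ⊥) π :=
    HasLiftingProperty.transfiniteComposition.hasLiftingProperty_ι_app_bot
      (hc := c.chain.isColimit) (fun j hj => hasLift_attaching (c.attach j hj) hπ)
  have hi : IsInitial (c.chain.F.obj ⊥) := c.startIsInitial.ofIso c.chain.isoBot.symm
  have sq : CommSq (hi.to P) (c.chain.incl.app ⊥) π g := ⟨hi.hom_ext _ _⟩
  exact ⟨sq.lift, sq.fac_right⟩

end Crest.Agent.R248
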